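import Mathlib

/-!
P194: definitions used in the statement (direct and stable finiteness, sofic groups, kernels).
-/

namespace Vale.Agent.P194

open Finset

/-- directly finite rings -/
def DirectlyFinite (S : Type*) [Ring S] : Prop := ∀ a b : S, a * b = 1 → b * a = 1

/-- stably finite rings -/
def StablyFinite (S : Type*) [Ring S] : Prop :=
  ∀ n : ℕ, 1 ≤ n → DirectlyFinite (Matrix (Fin n) (Fin n) S)

/-- sofic groups -/
def IsSofic (Q : Type*) [Group Q] : Prop :=
  ∀ (F : Finset Q) (ε : ℝ), 0 < ε → ∃ (n : ℕ) (_ : 0 < n) (σ : Q → Equiv.Perm (Fin n)),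
    (∀ g ∈ F, ∀ h ∈ F,
      ((univ.filter (fun v => σ (g * h) v ≠ σ g (σ h v))).card : ℝ) ≤ ε * n) ∧
    (∀ g ∈ F, g ≠ 1 → ((univ.filter (fun v => σ g v = v)).card : ℝ) ≤ ε * n)

/-- every nontrivial subgroup of `N` that is the normal closure in `G` of a finite set has a
nontrivial homomorphism to `C` -/
def Hyper {G : Type*} [Group G] (C : Type*) [Group C] (N : Subgroup G) : Prop :=
  ∀ E : Finset G, Subgroup.normalClosure (E : Set G) ≤ N →
    Subgroup.normalClosure (E : Set G) ≠ ⊥ →
    ∃ φ : Subgroup.normalClosure (E : Set G) →* C, φ ≠ 1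

/-- the smallest class of groups that contains the sofic groups and is closed under extensions
with a kernel `N` such that every nontrivial subgroup of `N` that is the normal closure of a finite
set maps nontrivially to `ℤ/p`, and under local embeddability -/
inductive Built.{u} (p : ℕ) : (G : Type u) → [Group G] → Prop
  | sofic (G : Type u) [Group G] : IsSofic G → Built p G
  | ext (G : Type u) [Group G] (N : Subgroup G) [N.Normal] :
      Hyper (Multiplicative (ZMod p)) N → Built p (G ⧸ N) → Built p G
  | limit (G : Type u) [Group G] (H : Finset G → Type u) [∀ F, Group (H F)] (φ : ∀ F, G → H F) :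
      (∀ F, Set.InjOn (φ F) F) →
      (∀ F, ∀ a ∈ F, ∀ b ∈ F, φ F (a * b) = φ F a * φ F b) →
      (∀ F, Built p (H F)) → Built p G

end Vale.Agent.P194
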