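import Vale.Agent.P194.Defs

/-!
P194: free kernels and central kernels.
-/

namespace Vale.Agent.P194

noncomputable section

/-- a nontrivial free group has a nontrivial homomorphism to every nontrivial group -/
theorem exists_hom_of_free {H : Type*} [Group H] [IsFreeGroup H] [Nontrivial H] {C : Type*}
    [Group C] {c : C} (hc : c ≠ 1) : ∃ φ : H →* C, φ ≠ 1 := by
  by_cases hg : Nonempty (IsFreeGroup.Generators H)
  · obtain ⟨x⟩ := hg
    refine ⟨IsFreeGroup.lift (fun _ => c), fun h => hc ?_⟩
    have h1 : IsFreeGroup.lift (fun _ : IsFreeGroup.Generators H => c) (IsFreeGroup.of x) = c :=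
      IsFreeGroup.lift_of _ _
    rw [h] at h1
    exact h1.symm
  · exfalso
    rw [not_nonempty_iff] at hg
    have h1 : Subsingleton H :=
      (IsFreeGroup.toFreeGroup H).toEquiv.subsingleton
    exact not_subsingleton H h1

/-- free normal subgroups satisfy the condition on kernels -/
theorem hyper_free {G : Type*} [Group G] (N : Subgroup G) [IsFreeGroup N] {C : Type*} [Group C]
    {c : C} (hc : c ≠ 1) : Hyper C N := by
  intro E hle hne
  have h1 : IsFreeGroup ((Subgroup.normalClosure (E : Set G)).subgroupOf N) :=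
    subgroupIsFreeOfIsFree _
  have h2 : IsFreeGroup (Subgroup.normalClosure (E : Set G)) :=
    IsFreeGroup.ofMulEquiv (Subgroup.subgroupOfEquivOfLe hle)
  have h3 : Nontrivial (Subgroup.normalClosure (E : Set G)) :=
    (Subgroup.nontrivial_iff_ne_bot _).2 hne
  exact exists_hom_of_free hc

theorem exists_hom_ne_field (k : Type*) [Field k] {V : Type*} [AddCommGroup V] [Module k V]
    {v : V} (hv : v ≠ 0) : ∃ f : V →+ k, f v ≠ 0 := by
  by_contra hcon
  push Not at hcon
  apply hv
  refine (Module.forall_dual_apply_eq_zero_iff k v).1 ?_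
  intro f
  exact hcon (LinearMap.toAddMonoidHom f)

/-- a nonzero vector of an abelian group killed by `p` is detected by a homomorphism to `ℤ/p` -/
theorem exists_hom_ne {p : ℕ} [hp : Fact p.Prime] {V : Type*} [AddCommGroup V]
    (hz : ∀ x : V, p • x = 0) {v : V} (hv : v ≠ 0) : ∃ f : V →+ ZMod p, f v ≠ 0 :=
  @exists_hom_ne_field (ZMod p) _ V _ (AddCommGroup.zmodModule hz) v hv

/-- a finitely generated abelian group without elements of finite order prime to `p` maps
nontrivially to `ℤ/p` -/
theorem exists_hom_of_comm {p : ℕ} [hp : Fact p.Prime] {M : Type*} [CommGroup M] [Nontrivial M]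
    (hfg : Group.FG M) (htor : ∀ x : M, ∀ k : ℕ, k.Coprime p → x ^ k = 1 → x = 1) :
    ∃ φ : M →* Multiplicative (ZMod p), φ ≠ 1 := by
  by_contra hcon
  push Not at hcon
  let A := Additive M
  have hfin : Module.Finite ℤ A := by
    rw [Module.Finite.iff_addGroup_fg]
    exact GroupFG.iff_add_fg.1 hfg
  let P : Submodule ℤ A := Ideal.span {(p : ℤ)} • (⊤ : Submodule ℤ A)
  have hP : ∀ x : A, (p : ℤ) • x ∈ P := fun x =>
    Submodule.smul_mem_smul (Ideal.mem_span_singleton_self _) trivial
  have hz : ∀ x : A ⧸ P, p • x = 0 := by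
    intro x
    obtain ⟨y, rfl⟩ := Submodule.Quotient.mk_surjective P x
    rw [← Submodule.Quotient.mk_smul, Submodule.Quotient.mk_eq_zero]
    have := hP y
    rwa [natCast_zsmul] at this
  have htop : (⊤ : Submodule ℤ A) ≤ P := by
    intro a _
    rw [← Submodule.Quotient.mk_eq_zero]
    by_contra hne
    obtain ⟨f, hf⟩ := exists_hom_ne hz hne
    let φ : M →* Multiplicative (ZMod p) :=
      { toFun := fun m => Multiplicative.ofAdd (f (Submodule.Quotient.mk (Additive.ofMul m)))
        map_one' := by
          rw [ofMul_one, Submodule.Quotient.mk_zero, map_zero, ofAdd_zero]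
        map_mul' := fun m n => by
          rw [ofMul_mul, Submodule.Quotient.mk_add, map_add, ofAdd_add] }
    have h1 : φ = 1 := hcon φ
    have h2 := congrArg (fun ψ : M →* Multiplicative (ZMod p) => ψ (Additive.toMul a)) h1
    exact hf h2
  obtain ⟨r, hr1, hr2⟩ := Submodule.exists_sub_one_mem_and_smul_eq_zero_of_fg_of_le_smul
    (Ideal.span {(p : ℤ)}) (⊤ : Submodule ℤ A) hfin.fg_top htop
  have hcop : r.natAbs.Coprime p := by
    rw [Ideal.mem_span_singleton] at hr1
    rw [Nat.coprime_comm, Nat.Prime.coprime_iff_not_dvd hp.out]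
    intro h
    have h1 : (p : ℤ) ∣ r := Int.natCast_dvd.2 h
    have h2 : (p : ℤ) ∣ 1 := by
      have := dvd_sub h1 hr1
      rwa [sub_sub_cancel] at this
    have h3 := Int.natAbs_dvd_natAbs.2 h2
    rw [Int.natAbs_natCast, Int.natAbs_one] at h3
    exact hp.out.one_lt.ne' (Nat.dvd_one.1 h3)
  obtain ⟨x, hx⟩ := exists_ne (1 : M)
  apply hx
  apply htor x r.natAbs hcop
  have h1 : r • (Additive.ofMul x) = 0 := hr2 _ trivial
  have h2 : x ^ r = 1 := h1
  rcases Int.natAbs_eq r with h | h
  · rw [h, zpow_natCast] at h2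
    exact h2
  · rw [h, zpow_neg, inv_eq_one, zpow_natCast] at h2
    exact h2

/-- central subgroups without elements of finite order prime to `p` satisfy the condition -/
theorem hyper_central {p : ℕ} [hp : Fact p.Prime] {G : Type*} [Group G] (N : Subgroup G)
    (hN : N ≤ Subgroup.center G)
    (htor : ∀ x ∈ N, ∀ k : ℕ, k.Coprime p → x ^ k = 1 → x = 1) :
    Hyper (Multiplicative (ZMod p)) N := by
  intro E hle hne
  have hcen : ∀ x ∈ Subgroup.normalClosure (E : Set G), ∀ g : G, g * x = x * g := fun x hx =>
    Subgroup.mem_center_iff.1 (hN (hle hx))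
  have hEc : Subgroup.closure (E : Set G) ≤ Subgroup.normalClosure (E : Set G) :=
    Subgroup.closure_le_normalClosure
  have hnorm : (Subgroup.closure (E : Set G)).Normal := by
    constructor
    intro x hx g
    rw [hcen x (hEc hx) g, mul_assoc, mul_inv_cancel, mul_one]
    exact hx
  have heq : Subgroup.normalClosure (E : Set G) = Subgroup.closure (E : Set G) :=
    le_antisymm (Subgroup.normalClosure_le_normal Subgroup.subset_closure) hEc
  let _ : CommGroup (Subgroup.normalClosure (E : Set G)) :=
    { (inferInstance : Group (Subgroup.normalClosure (E : Set G))) with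
      mul_comm := fun a b => Subtype.ext (hcen b b.2 a) }
  have : Nontrivial (Subgroup.normalClosure (E : Set G)) :=
    (Subgroup.nontrivial_iff_ne_bot _).2 hne
  refine exists_hom_of_comm (p := p) ?_ ?_
  · refine (Group.fg_iff_subgroup_fg _).2 ?_
    exact ⟨E, heq.symm⟩
  · intro x k hk hxk
    apply Subtype.ext
    apply htor x (hle x.2) k hk
    have := congrArg (fun y : Subgroup.normalClosure (E : Set G) => (y : G)) hxk
    exact this

end

end Vale.Agent.P194
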