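import Vale.Agent.P194.Limit
import Vale.Agent.P194.Kernels

/-!
P194: homomorphisms with free kernel; amalgams of copies of one group and HNN extensions.
-/

namespace Vale.Agent.P194

open MonoidAlgebra

noncomputable section

/-- direct finiteness passes to subrings -/
theorem df_inj {S T : Type*} [Ring S] [Ring T] (f : S →+* T) (hf : Function.Injective f)
    (hT : DirectlyFinite T) : DirectlyFinite S := by
  intro a b hab
  apply hf
  rw [map_mul, map_one]
  apply hT
  rw [← map_mul, hab, map_one]

theorem sf_inj {S T : Type*} [Ring S] [Ring T] (f : S →+* T) (hf : Function.Injective f)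
    (hT : StablyFinite T) : StablyFinite S := by
  intro n hn
  refine df_inj (f.mapMatrix : Matrix (Fin n) (Fin n) S →+* Matrix (Fin n) (Fin n) T) ?_ (hT n hn)
  intro A B hAB
  ext i j
  apply hf
  exact congrFun (congrFun hAB i) j

theorem mapDomain_inj {R : Type*} [Ring R] {G H : Type*} [Group G] [Group H] (f : G →* H)
    (hf : Function.Injective f) : Function.Injective (mapDomainRingHom R f) := by
  classical
  intro x y hxy
  exact map_inj_of_supp f (x.coeff.support ∪ y.coeff.support) (hf.injOn) x y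
    Finset.subset_union_left Finset.subset_union_right hxy

theorem df_group {R : Type*} [Ring R] {G H : Type*} [Group G] [Group H] (f : G →* H)
    (hf : Function.Injective f) (h : DirectlyFinite (MonoidAlgebra R H)) :
    DirectlyFinite (MonoidAlgebra R G) :=
  df_inj _ (mapDomain_inj f hf) h

theorem sf_group {R : Type*} [Ring R] {G H : Type*} [Group G] [Group H] (f : G →* H)
    (hf : Function.Injective f) (h : StablyFinite (MonoidAlgebra R H)) :
    StablyFinite (MonoidAlgebra R G) :=
  sf_inj _ (mapDomain_inj f hf) h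

/-- homomorphisms with free kernel -/
theorem free_ker {R : Type*} [Ring R] {G Q : Type*} [Group G] [Group Q] (f : G →* Q)
    (hf : IsFreeGroup f.ker) :
    (DirectlyFinite (MonoidAlgebra R Q) → DirectlyFinite (MonoidAlgebra R G)) ∧
    (StablyFinite (MonoidAlgebra R Q) → StablyFinite (MonoidAlgebra R G)) := by
  have hc : (Multiplicative.ofAdd (1 : ℤ)) ≠ 1 := by
    intro h
    exact one_ne_zero (Multiplicative.ofAdd.injective h)
  have hH : Hyper (Multiplicative ℤ) f.ker := hyper_free f.ker hc
  constructor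
  · intro h
    exact df_ext vp_Z hH (df_group (QuotientGroup.kerLift f) (QuotientGroup.kerLift_injective f) h)
  · intro h
    exact stab_ext vp_Z hH
      (sf_group (QuotientGroup.kerLift f) (QuotientGroup.kerLift_injective f) h)

section Double

variable {A : Type*} [Group A] (C : Subgroup A) (ι : Type*)

/-- the action of `A` on the free group on `ι × A / C` -/
def act : A →* MulAut (FreeGroup (ι × (A ⧸ C))) where
  toFun a := FreeGroup.freeGroupCongr (Equiv.prodCongr (Equiv.refl ι) (MulAction.toPerm a))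
  map_one' := by
    apply MulEquiv.toMonoidHom_injective
    ext ⟨i, x⟩
    show FreeGroup.of (i, (1 : A) • x) = FreeGroup.of (i, x)
    rw [one_smul]
  map_mul' a b := by
    apply MulEquiv.toMonoidHom_injective
    ext ⟨i, x⟩
    show FreeGroup.of (i, (a * b) • x) = FreeGroup.of (i, a • b • x)
    rw [mul_smul]

theorem act_of (a : A) (i : ι) (x : A ⧸ C) :
    act C ι a (FreeGroup.of (i, x)) = FreeGroup.of (i, a • x) := rfl

/-- the ambient group -/
abbrev Amb := FreeGroup (ι × (A ⧸ C)) ⋊[act C ι] A

theorem amb_ker : IsFreeGroup (SemidirectProduct.rightHom : Amb C ι →* A).ker := by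
  have h : (SemidirectProduct.inl : _ →* Amb C ι).range =
    (SemidirectProduct.rightHom : Amb C ι →* A).ker := SemidirectProduct.range_inl_eq_ker_rightHom
  rw [← h]
  exact IsFreeGroup.ofMulEquiv (MonoidHom.ofInjective SemidirectProduct.inl_injective)

/-- the stable letters -/
def sl (i : ι) : Amb C ι := SemidirectProduct.inl (FreeGroup.of (i, ((1 : A) : A ⧸ C)))

theorem sl_comm (i : ι) (c : C) :
    sl C ι i * SemidirectProduct.inr (c : A) = SemidirectProduct.inr (c : A) * sl C ι i := by
  have h1 : (SemidirectProduct.inl (act C ι (c : A) (FreeGroup.of (i, ((1 : A) : A ⧸ C)))) :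
      Amb C ι) = SemidirectProduct.inr (c : A) * sl C ι i * SemidirectProduct.inr (c : A)⁻¹ :=
    SemidirectProduct.inl_aut _ _
  have h2 : (c : A) • ((1 : A) : A ⧸ C) = ((1 : A) : A ⧸ C) := by
    show (((c : A) * 1 : A) : A ⧸ C) = _
    rw [mul_one, QuotientGroup.eq]
    simp
  rw [act_of, h2] at h1
  have h3 : sl C ι i = SemidirectProduct.inr (c : A) * sl C ι i *
    SemidirectProduct.inr (c : A)⁻¹ := h1
  rw [map_inv] at h3
  exact (eq_mul_inv_iff_mul_eq.1 h3)

/-- the values on the basis of the free group -/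
def outFun {T : Type*} [Group T] (f : A →* T) (s : ι → T)
    (hs : ∀ i, ∀ c : C, s i * f c = f c * s i) (p : ι × (A ⧸ C)) : T :=
  Quotient.liftOn' p.2 (fun a => f a * s p.1 * (f a)⁻¹) (fun a b hab => by
    have h1 : a⁻¹ * b ∈ C := QuotientGroup.leftRel_apply.1 hab
    have h2 := hs p.1 ⟨_, h1⟩
    have h3 : b = a * (a⁻¹ * b) := by group
    have h5 : f (a⁻¹ * b) * s p.1 = s p.1 * f (a⁻¹ * b) := h2.symm
    have h4 : f b * s p.1 * (f b)⁻¹ =
        f a * (f (a⁻¹ * b) * s p.1) * (f (a⁻¹ * b))⁻¹ * (f a)⁻¹ := by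
      rw [map_mul, map_inv]
      group
    show f a * s p.1 * (f a)⁻¹ = f b * s p.1 * (f b)⁻¹
    rw [h4, h5]
    group)

theorem outFun_mk {T : Type*} [Group T] (f : A →* T) (s : ι → T)
    (hs : ∀ i, ∀ c : C, s i * f c = f c * s i) (i : ι) (a : A) :
    outFun C ι f s hs (i, (a : A ⧸ C)) = f a * s i * (f a)⁻¹ := rfl

/-- maps out of the ambient group -/
def out {T : Type*} [Group T] (f : A →* T) (s : ι → T)
    (hs : ∀ i, ∀ c : C, s i * f c = f c * s i) : Amb C ι →* T :=
  SemidirectProduct.lift (FreeGroup.lift (outFun C ι f s hs)) f (by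
    intro g
    ext ⟨i, x⟩
    obtain ⟨a, rfl⟩ := QuotientGroup.mk_surjective x
    show FreeGroup.lift (outFun C ι f s hs) (FreeGroup.of (i, g • (a : A ⧸ C))) = f g *
      FreeGroup.lift (outFun C ι f s hs) (FreeGroup.of (i, (a : A ⧸ C))) * (f g)⁻¹
    rw [FreeGroup.lift_apply_of, FreeGroup.lift_apply_of]
    have h1 : g • (a : A ⧸ C) = ((g * a : A) : A ⧸ C) := rfl
    rw [h1, outFun_mk, outFun_mk, map_mul]
    group)

theorem out_inr {T : Type*} [Group T] (f : A →* T) (s : ι → T)
    (hs : ∀ i, ∀ c : C, s i * f c = f c * s i) (a : A) :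
    out C ι f s hs (SemidirectProduct.inr a) = f a :=
  SemidirectProduct.lift_inr _ _ _ _

theorem out_sl {T : Type*} [Group T] (f : A →* T) (s : ι → T)
    (hs : ∀ i, ∀ c : C, s i * f c = f c * s i) (i : ι) :
    out C ι f s hs (sl C ι i) = s i := by
  have h1 : out C ι f s hs (sl C ι i) =
      FreeGroup.lift (outFun C ι f s hs) (FreeGroup.of (i, ((1 : A) : A ⧸ C))) :=
    SemidirectProduct.lift_inl _ _ _ _
  rw [h1, FreeGroup.lift_apply_of, outFun_mk, map_one, one_mul, inv_one, mul_one]

/-- the HNN extension of `A` along the identity of `C` embeds -/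
theorem hnn_embed : ∃ j : HNNExtension A C C (MulEquiv.refl C) →* Amb C Unit,
    Function.Injective j := by
  let j : HNNExtension A C C (MulEquiv.refl C) →* Amb C Unit :=
    HNNExtension.lift SemidirectProduct.inr (sl C Unit ()) (fun c => sl_comm C Unit () c)
  let k : Amb C Unit →* HNNExtension A C C (MulEquiv.refl C) :=
    out C Unit HNNExtension.of (fun _ => HNNExtension.t) (fun _ c => HNNExtension.t_mul_of c)
  have h : k.comp j = MonoidHom.id _ := by
    apply HNNExtension.hom_ext
    · ext a
      show k (j (HNNExtension.of a)) = HNNExtension.of a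
      have e : j (HNNExtension.of a) = SemidirectProduct.inr a := HNNExtension.lift_of _ _ _ _
      rw [e]
      exact out_inr _ _ _ _ _ _
    · show k (j HNNExtension.t) = HNNExtension.t
      have e : j HNNExtension.t = sl C Unit () := HNNExtension.lift_t _ _ _
      rw [e]
      exact out_sl _ _ _ _ _ _
  refine ⟨j, fun x y hxy => ?_⟩
  have h1 := DFunLike.congr_fun h x
  have h2 := DFunLike.congr_fun h y
  have h3 : k (j x) = k (j y) := congrArg k hxy
  exact (h1.symm.trans h3).trans h2

/-- the amalgam of copies of `A`, indexed by `ι`, over `C` -/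
abbrev Amalgam := Monoid.PushoutI (fun _ : ι => C.subtype)

/-- the copies of `A` in the amalgam -/
def ofc (i : ι) : A →* Amalgam C ι := Monoid.PushoutI.of (φ := fun _ : ι => C.subtype) i

/-- the subgroup `C` in the amalgam -/
def bs : C →* Amalgam C ι := Monoid.PushoutI.base (fun _ : ι => C.subtype)

theorem ofc_comp (i : ι) : (ofc C ι i).comp C.subtype = bs C ι :=
  Monoid.PushoutI.of_comp_eq_base (φ := fun _ : ι => C.subtype) i

theorem ofc_coe (i : ι) (c : C) : ofc C ι i (c : A) = bs C ι c :=
  DFunLike.congr_fun (ofc_comp C ι i) c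

/-- maps out of the amalgam -/
def lft {K : Type*} [Group K] (f : ι → A →* K) (k : C →* K) (h : ∀ i, (f i).comp C.subtype = k) :
    Amalgam C ι →* K :=
  Monoid.PushoutI.lift (φ := fun _ : ι => C.subtype) f k h

theorem lft_ofc {K : Type*} [Group K] (f : ι → A →* K) (k : C →* K)
    (h : ∀ i, (f i).comp C.subtype = k) (i : ι) (a : A) : lft C ι f k h (ofc C ι i a) = f i a :=
  Monoid.PushoutI.lift_of (φ := fun _ : ι => C.subtype) f k h a

theorem lft_bs {K : Type*} [Group K] (f : ι → A →* K) (k : C →* K)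
    (h : ∀ i, (f i).comp C.subtype = k) (c : C) : lft C ι f k h (bs C ι c) = k c :=
  Monoid.PushoutI.lift_base (φ := fun _ : ι => C.subtype) f k h c

theorem amalgam_ext {K : Type*} [Group K] {f g : Amalgam C ι →* K}
    (h : ∀ i a, f (ofc C ι i a) = g (ofc C ι i a)) (hb : ∀ c, f (bs C ι c) = g (bs C ι c)) :
    f = g :=
  Monoid.PushoutI.hom_ext (φ := fun _ : ι => C.subtype) (fun i => MonoidHom.ext (h i))
    (MonoidHom.ext hb)

/-- renaming the copies -/
def sh (π : Equiv.Perm ι) : Amalgam C ι →* Amalgam C ι :=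
  lft C ι (fun i => ofc C ι (π i)) (bs C ι) (fun i => ofc_comp C ι (π i))

theorem sh_of (π : Equiv.Perm ι) (i : ι) (a : A) :
    sh C ι π (ofc C ι i a) = ofc C ι (π i) a :=
  lft_ofc _ _ _ _ _ _ _

theorem sh_base (π : Equiv.Perm ι) (c : C) :
    sh C ι π (bs C ι c) = bs C ι c :=
  lft_bs _ _ _ _ _ _

theorem sh_comp (π ρ : Equiv.Perm ι) : (sh C ι π).comp (sh C ι ρ) = sh C ι (π * ρ) := by
  apply amalgam_ext
  · intro i a
    show sh C ι π (sh C ι ρ (ofc C ι i a)) = sh C ι (π * ρ) (ofc C ι i a)
    rw [sh_of, sh_of, sh_of]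
    rfl
  · intro c
    show sh C ι π (sh C ι ρ (bs C ι c)) = sh C ι (π * ρ) (bs C ι c)
    rw [sh_base, sh_base, sh_base]

theorem sh_one : sh C ι 1 = MonoidHom.id _ := by
  apply amalgam_ext
  · intro i a
    exact sh_of C ι 1 i a
  · intro c
    exact sh_base C ι 1 c

/-- the permutation action on the amalgam -/
def shAct : Equiv.Perm ι →* MulAut (Amalgam C ι) where
  toFun π := MonoidHom.toMulEquiv (sh C ι π) (sh C ι π⁻¹)
    (by rw [sh_comp, inv_mul_cancel, sh_one]) (by rw [sh_comp, mul_inv_cancel, sh_one])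
  map_one' := by
    apply MulEquiv.toMonoidHom_injective
    exact sh_one C ι
  map_mul' π ρ := by
    apply MulEquiv.toMonoidHom_injective
    exact (sh_comp C ι π ρ).symm

theorem shAct_apply (π : Equiv.Perm ι) (x : Amalgam C ι) : shAct C ι π x = sh C ι π x := rfl

theorem amalgam_embed [Nonempty ι] : ∃ j : Amalgam C ι →* Amb C ι, Function.Injective j := by
  classical
  obtain ⟨i₀⟩ := (inferInstance : Nonempty ι)
  let j : Amalgam C ι →* Amb C ι :=
    lft C ι
      (fun i => (MulAut.conj (sl C ι i)).toMonoidHom.comp SemidirectProduct.inr)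
      (SemidirectProduct.inr.comp C.subtype)
      (fun i => by
        ext1 c
        show sl C ι i * SemidirectProduct.inr (c : A) * (sl C ι i)⁻¹ =
          SemidirectProduct.inr (c : A)
        rw [sl_comm, mul_inv_cancel_right])
  let T := Amalgam C ι ⋊[shAct C ι] Equiv.Perm ι
  have hs : ∀ i, ∀ c : C, (SemidirectProduct.inr (Equiv.swap i₀ i) : T) *
      (SemidirectProduct.inl.comp (ofc C ι i₀)) (c : A) =
      (SemidirectProduct.inl.comp (ofc C ι i₀)) (c : A) *
        SemidirectProduct.inr (Equiv.swap i₀ i) := by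
    intro i c
    have h0 : (ofc C ι i₀ (c : A) : Amalgam C ι) = bs C ι c := ofc_coe C ι i₀ c
    have h1 : (SemidirectProduct.inl (shAct C ι (Equiv.swap i₀ i)
        (ofc C ι i₀ (c : A))) : T) = SemidirectProduct.inr (Equiv.swap i₀ i) *
        SemidirectProduct.inl (ofc C ι i₀ (c : A)) *
        SemidirectProduct.inr (Equiv.swap i₀ i)⁻¹ := SemidirectProduct.inl_aut _ _
    rw [shAct_apply, h0, sh_base, map_inv] at h1
    show (SemidirectProduct.inr (Equiv.swap i₀ i) : T) *
      SemidirectProduct.inl (ofc C ι i₀ (c : A)) =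
      SemidirectProduct.inl (ofc C ι i₀ (c : A)) *
        SemidirectProduct.inr (Equiv.swap i₀ i)
    rw [h0]
    exact (eq_mul_inv_iff_mul_eq.1 h1).symm
  let k : Amb C ι →* T :=
    out C ι (SemidirectProduct.inl.comp (ofc C ι i₀))
      (fun i => SemidirectProduct.inr (Equiv.swap i₀ i)) hs
  have h : k.comp j = (SemidirectProduct.inl : Amalgam C ι →* T) := by
    have hof : ∀ i a, k (j (ofc C ι i a)) = SemidirectProduct.inl (ofc C ι i a) := ?_
    · refine amalgam_ext C ι (fun i a => hof i a) (fun c => ?_)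
      have h0 : (ofc C ι i₀ (c : A) : Amalgam C ι) = bs C ι c := ofc_coe C ι i₀ c
      rw [← h0]
      exact hof i₀ c
    intro i a
    have h1 : j (ofc C ι i a) = sl C ι i * SemidirectProduct.inr a * (sl C ι i)⁻¹ :=
      lft_ofc _ _ _ _ _ _ _
    rw [h1, map_mul, map_mul, map_inv]
    have h2 : k (sl C ι i) = SemidirectProduct.inr (Equiv.swap i₀ i) := out_sl _ _ _ _ _ _
    have h3 : k (SemidirectProduct.inr a) = SemidirectProduct.inl (ofc C ι i₀ a) :=
      out_inr _ _ _ _ _ _
    rw [h2, h3, ← map_inv, ← SemidirectProduct.inl_aut, shAct_apply, sh_of, Equiv.swap_apply_left]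
  refine ⟨j, fun x y hxy => ?_⟩
  have h1 := DFunLike.congr_fun h x
  have h2 := DFunLike.congr_fun h y
  have h3 : k (j x) = k (j y) := congrArg k hxy
  exact SemidirectProduct.inl_injective ((h1.symm.trans h3).trans h2)

end Double

/-- amalgams of copies of `A` -/
theorem amalgam_finite {R : Type*} [Ring R] {A : Type*} [Group A] (C : Subgroup A) (ι : Type*)
    [Nonempty ι] :
    (DirectlyFinite (MonoidAlgebra R A) → DirectlyFinite (MonoidAlgebra R (Amalgam C ι))) ∧
    (StablyFinite (MonoidAlgebra R A) → StablyFinite (MonoidAlgebra R (Amalgam C ι))) := by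
  obtain ⟨j, hj⟩ := amalgam_embed C ι
  have h := free_ker (R := R) _ (amb_ker C ι)
  exact ⟨fun h1 => df_group j hj (h.1 h1), fun h1 => sf_group j hj (h.2 h1)⟩

/-- HNN extensions along the identity -/
theorem hnn_finite {R : Type*} [Ring R] {A : Type*} [Group A] (C : Subgroup A) :
    (DirectlyFinite (MonoidAlgebra R A) →
      DirectlyFinite (MonoidAlgebra R (HNNExtension A C C (MulEquiv.refl C)))) ∧
    (StablyFinite (MonoidAlgebra R A) →
      StablyFinite (MonoidAlgebra R (HNNExtension A C C (MulEquiv.refl C)))) := by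
  obtain ⟨j, hj⟩ := hnn_embed C
  have h := free_ker (R := R) _ (amb_ker C Unit)
  exact ⟨fun h1 => df_group j hj (h.1 h1), fun h1 => sf_group j hj (h.2 h1)⟩

end

end Vale.Agent.P194
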