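import Mathlib

/-!
P194: powers of the kernel of `R[G] → R[G ⧸ M]` and coset sums.
-/

namespace Vale.Agent.P194

open MonoidAlgebra

noncomputable section

section basics

variable {R : Type*} [Ring R] {G : Type*} [Group G]

/-- the element `a - 1` of the group ring -/
def dl (R : Type*) [Ring R] {G : Type*} [Group G] (a : G) : MonoidAlgebra R G := single a 1 - 1

/-- the product of the elements `a - 1`, `a ∈ L` -/
def pl (R : Type*) [Ring R] {G : Type*} [Group G] (L : List G) : MonoidAlgebra R G :=
  (L.map (dl R)).prod

/-- the `k`-th power of the kernel of `R[G] → R[G ⧸ M]` -/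
def J (R : Type*) [Ring R] {G : Type*} [Group G] (M : Subgroup G) (k : ℕ) :
    AddSubgroup (MonoidAlgebra R G) :=
  AddSubgroup.closure {x | ∃ (g : G) (r : R) (L : List G), (∀ a ∈ L, a ∈ M) ∧ L.length = k ∧
    x = single g r * pl R L}

theorem single_mul (g h : G) (r s : R) :
    (single g r : MonoidAlgebra R G) * single h s = single (g * h) (r * s) :=
  MonoidAlgebra.single_mul_single ..

theorem dl_mul_single (a h : G) (s : R) :
    dl R a * (single h s : MonoidAlgebra R G) = single h s * dl R (h⁻¹ * a * h) := by
  unfold dl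
  rw [sub_mul, mul_sub, single_mul, single_mul, one_mul, mul_one, one_mul, mul_one]
  congr 2
  group

theorem pl_mul_single (L : List G) (h : G) (s : R) :
    pl R L * (single h s : MonoidAlgebra R G) =
      single h s * pl R (L.map (fun a => h⁻¹ * a * h)) := by
  induction L with
  | nil => simp [pl]
  | cons a L ih =>
    have e1 : pl R (a :: L) = dl R a * pl R L := by simp [pl]
    have e2 : pl R ((a :: L).map (fun a => h⁻¹ * a * h)) =
        dl R (h⁻¹ * a * h) * pl R (L.map (fun a => h⁻¹ * a * h)) := by simp [pl]
    rw [e1, e2, mul_assoc, ih, ← mul_assoc, dl_mul_single, mul_assoc]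

/-- induction principle -/
theorem lin_ind {P : MonoidAlgebra R G → Prop} (x : MonoidAlgebra R G) (h0 : P 0)
    (h1 : ∀ x y, P x → P y → P (x + y)) (h2 : ∀ g r, P (single g r)) : P x := by
  have e := MonoidAlgebra.sum_coeff_single x
  rw [← e]
  unfold Finsupp.sum
  exact Finset.sum_induction _ P h1 h0 fun g _ => h2 g _

theorem J_mul_right {M : Subgroup G} (hM : M.Normal) {k : ℕ} {x : MonoidAlgebra R G}
    (hx : x ∈ J R M k) (y : MonoidAlgebra R G) : x * y ∈ J R M k := by
  refine lin_ind (P := fun y => x * y ∈ J R M k) y ?_ ?_ ?_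
  · rw [mul_zero]; exact zero_mem _
  · intro y z hy hz
    rw [mul_add]
    exact add_mem hy hz
  · intro h s
    unfold J at hx ⊢
    induction hx using AddSubgroup.closure_induction with
    | mem x hx =>
      obtain ⟨g, r, L, hL, hk, rfl⟩ := hx
      apply AddSubgroup.subset_closure
      refine ⟨g * h, r * s, L.map (fun a => h⁻¹ * a * h), ?_, by simp [hk], ?_⟩
      · intro a ha
        obtain ⟨b, hb, rfl⟩ := List.mem_map.1 ha
        have := hM.conj_mem b (hL b hb) h⁻¹
        rwa [inv_inv] at this
      · rw [mul_assoc, pl_mul_single, ← mul_assoc, single_mul]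
    | zero => rw [zero_mul]; exact zero_mem _
    | add x y _ _ hx hy => rw [add_mul]; exact add_mem hx hy
    | neg x _ hx => rw [neg_mul]; exact neg_mem hx

theorem J_mul {M : Subgroup G} (hM : M.Normal) {k : ℕ} {x z : MonoidAlgebra R G}
    (hx : x ∈ J R M k) (hz : z ∈ J R M 1) : x * z ∈ J R M (k + 1) := by
  have key : ∀ (a : G), a ∈ M → ∀ y ∈ J R M k, y * pl R [a] ∈ J R M (k + 1) := by
    intro a ha y hy
    unfold J at hy ⊢
    induction hy using AddSubgroup.closure_induction with
    | mem x hx =>
      obtain ⟨g, r, L, hL, hk, rfl⟩ := hx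
      apply AddSubgroup.subset_closure
      refine ⟨g, r, L ++ [a], ?_, by simp [hk], ?_⟩
      · intro b hb
        rcases List.mem_append.1 hb with h | h
        · exact hL b h
        · rw [List.mem_singleton.1 h]; exact ha
      · rw [mul_assoc]
        congr 1
        simp [pl]
    | zero => rw [zero_mul]; exact zero_mem _
    | add x y _ _ hx hy => rw [add_mul]; exact add_mem hx hy
    | neg x _ hx => rw [neg_mul]; exact neg_mem hx
  unfold J at hz
  induction hz using AddSubgroup.closure_induction with
  | mem z hz =>
    obtain ⟨g, r, L, hL, hk, rfl⟩ := hz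
    obtain ⟨a, rfl⟩ := List.length_eq_one_iff.1 hk
    rw [← mul_assoc]
    exact key a (hL a (List.mem_singleton.2 rfl)) _ (J_mul_right hM hx _)
  | zero => rw [mul_zero]; exact zero_mem _
  | add y z _ _ hy hz => rw [mul_add]; exact add_mem hy hz
  | neg z _ hz => rw [mul_neg]; exact neg_mem hz

/-! coset sums -/

open Classical in
/-- the sum of the coefficients of `x` over the coset `g M` -/
def cs (M : Subgroup G) (g : G) : MonoidAlgebra R G →+ R :=
  (Finsupp.liftAddHom (fun h : G => if g⁻¹ * h ∈ M then AddMonoidHom.id R else 0)).comp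
    (MonoidAlgebra.coeffAddEquiv (R := R) (M := G)).toAddMonoidHom

open Classical in
theorem cs_single (M : Subgroup G) (g h : G) (r : R) :
    cs M g (single h r : MonoidAlgebra R G) = if g⁻¹ * h ∈ M then r else 0 := by
  unfold cs
  rw [AddMonoidHom.comp_apply]
  have e : (MonoidAlgebra.coeffAddEquiv (R := R) (M := G)).toAddMonoidHom (single h r) =
      Finsupp.single h r := rfl
  rw [e, Finsupp.liftAddHom_apply_single]
  split_ifs <;> rfl

omit [Group G] in
/-- two additive functionals that agree on the terms of `x` agree on `x` -/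
theorem agree {H : Type*} [AddCommMonoid H] (f₁ f₂ : MonoidAlgebra R G →+ H)
    (x : MonoidAlgebra R G)
    (h : ∀ g ∈ x.coeff.support, ∀ r, f₁ (single g r) = f₂ (single g r)) : f₁ x = f₂ x := by
  have e := MonoidAlgebra.sum_coeff_single x
  rw [← e]
  unfold Finsupp.sum
  rw [map_sum, map_sum]
  exact Finset.sum_congr rfl fun g hg => h g hg _

theorem mapDomain_eq_zero_iff {M : Subgroup G} [hM : M.Normal] (x : MonoidAlgebra R G) :
    mapDomainRingHom R (QuotientGroup.mk' M) x = 0 ↔ ∀ g, cs M g x = 0 := by
  classical
  have key : ∀ g : G, (mapDomainRingHom R (QuotientGroup.mk' M) x).coeff (QuotientGroup.mk' M g) =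
      cs M g x := by
    intro g
    let f₁ : MonoidAlgebra R G →+ R :=
      ((Finsupp.applyAddHom (QuotientGroup.mk' M g)).comp
        (MonoidAlgebra.coeffAddEquiv (R := R) (M := G ⧸ M)).toAddMonoidHom).comp
        (mapDomainRingHom R (QuotientGroup.mk' M)).toAddMonoidHom
    have h1 : f₁ x = cs M g x := by
      apply agree
      intro h _ r
      rw [cs_single]
      show (mapDomainRingHom R (QuotientGroup.mk' M) (single h r)).coeff (QuotientGroup.mk' M g) = _
      have e1 : mapDomainRingHom R (QuotientGroup.mk' M) (single h r) =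
          single (QuotientGroup.mk' M h) r := by
        show mapDomain _ _ = _
        exact mapDomain_single
      rw [e1, coeff_single, Finsupp.single_apply]
      have e2 : (QuotientGroup.mk' M h = QuotientGroup.mk' M g) ↔ g⁻¹ * h ∈ M := by
        rw [eq_comm]
        exact QuotientGroup.eq
      simp only [e2]
    exact h1
  constructor
  · intro h g
    rw [← key, h]
    rfl
  · intro h
    ext q
    obtain ⟨g, rfl⟩ := QuotientGroup.mk'_surjective M q
    rw [key, h]
    rfl

theorem mem_J_one {M : Subgroup G} [hM : M.Normal] {x : MonoidAlgebra R G}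
    (hx : mapDomainRingHom R (QuotientGroup.mk' M) x = 0) : x ∈ J R M 1 := by
  have h1 : x - mapDomain (fun g : G => (QuotientGroup.mk' M g).out) x ∈ J R M 1 := by
    refine lin_ind (P := fun x => x - mapDomain (fun g : G => (QuotientGroup.mk' M g).out) x
      ∈ J R M 1) x ?_ ?_ ?_
    · rw [mapDomain_zero, sub_zero]; exact zero_mem _
    · intro x y hx hy
      rw [mapDomain_add, add_sub_add_comm]
      exact add_mem hx hy
    · intro g r
      rw [mapDomain_single]
      apply AddSubgroup.subset_closure
      set o : G := (QuotientGroup.mk' M g).out with ho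
      have h2 : o⁻¹ * g ∈ M := by
        have h3 : (QuotientGroup.mk' M o) = QuotientGroup.mk' M g := by
          rw [ho]
          exact Quotient.out_eq' _
        exact QuotientGroup.eq.1 h3
      refine ⟨o, r, [o⁻¹ * g], ?_, rfl, ?_⟩
      · intro a ha
        rw [List.mem_singleton.1 ha]
        exact h2
      · have e1 : pl R [o⁻¹ * g] = single (o⁻¹ * g) 1 - 1 := by simp [pl, dl]
        rw [e1, mul_sub, single_mul, mul_one, mul_one, mul_inv_cancel_left]
  have h2 : mapDomain (fun g : G => (QuotientGroup.mk' M g).out) x = 0 := by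
    have e1 : mapDomain (fun g : G => (QuotientGroup.mk' M g).out) x =
        mapDomain (fun q : G ⧸ M => q.out) (mapDomainRingHom R (QuotientGroup.mk' M) x) := by
      let f₁ : MonoidAlgebra R G →+ MonoidAlgebra R G :=
        { toFun := mapDomain (fun g : G => (QuotientGroup.mk' M g).out)
          map_zero' := mapDomain_zero _
          map_add' := fun x y => mapDomain_add _ x y }
      let f₂ : MonoidAlgebra R (G ⧸ M) →+ MonoidAlgebra R G :=
        { toFun := mapDomain (fun q : G ⧸ M => q.out)
          map_zero' := mapDomain_zero _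
          map_add' := fun x y => mapDomain_add _ x y }
      refine agree f₁ (f₂.comp (mapDomainRingHom R (QuotientGroup.mk' M)).toAddMonoidHom) x ?_
      intro h _ r
      show mapDomain _ (single h r) = mapDomain _ (mapDomain _ (single h r))
      rw [mapDomain_single, mapDomain_single, mapDomain_single]
    rw [e1, hx, mapDomain_zero]
  rwa [h2, sub_zero] at h1

/-- entries of an idempotent matrix that dies in `R[G ⧸ M]` lie in all powers -/
theorem idem_mem_J {M : Subgroup G} [hM : M.Normal] {ι : Type*} [Fintype ι]
    (e : Matrix ι ι (MonoidAlgebra R G)) (he : e * e = e) (h0 : ∀ i j, e i j ∈ J R M 1) :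
    ∀ k i j, e i j ∈ J R M k := by
  intro k
  induction k with
  | zero =>
    intro i j
    refine lin_ind (P := fun x => x ∈ J R M 0) _ (zero_mem _) (fun x y => add_mem) ?_
    intro g r
    apply AddSubgroup.subset_closure
    exact ⟨g, r, [], by simp, rfl, by simp [pl]⟩
  | succ k ih =>
    intro i j
    rw [← he, Matrix.mul_apply]
    exact sum_mem fun l _ => J_mul hM (ih i l) (h0 l j)

end basics

end

end Vale.Agent.P194
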