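import Vale.Agent.P194.Main

/-!
P194: group algebras of sofic groups over fields are stably finite (Elek-Szabo).
-/

namespace Vale.Agent.P194

open MonoidAlgebra Finset

noncomputable section

section mat

variable {K : Type*} [Field K] {Q : Type*} [Group Q] {n : ℕ} (σ : Q → Equiv.Perm (Fin n))

/-- matrix entry -/
def tau (u v : Fin n) : MonoidAlgebra K Q →+ K :=
  (Finsupp.liftAddHom (fun g : Q => if σ g v = u then AddMonoidHom.id K else 0)).comp
    (MonoidAlgebra.coeffAddEquiv (R := K) (M := Q)).toAddMonoidHom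

theorem tau_single (u v : Fin n) (g : Q) (r : K) :
    tau σ u v (single g r) = if σ g v = u then r else 0 := by
  unfold tau
  rw [AddMonoidHom.comp_apply]
  have e : (MonoidAlgebra.coeffAddEquiv (R := K) (M := Q)).toAddMonoidHom (single g r) =
      Finsupp.single g r := rfl
  rw [e, Finsupp.liftAddHom_apply_single]
  split_ifs <;> rfl

theorem tau_mul (u v : Fin n) (x y : MonoidAlgebra K Q)
    (h : ∀ g ∈ x.coeff.support, ∀ k ∈ y.coeff.support, σ (g * k) v = σ g (σ k v)) :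
    ∑ w, tau σ u w x * tau σ w v y = tau σ u v (x * y) := by
  let f₁ : MonoidAlgebra K Q →+ K := AddMonoidHom.mk' (fun x => ∑ w, tau σ u w x * tau σ w v y)
    (fun a b => by
      simp only [map_add, add_mul]
      exact sum_add_distrib)
  let f₂ : MonoidAlgebra K Q →+ K := AddMonoidHom.mk' (fun x => tau σ u v (x * y))
    (fun a b => by rw [add_mul, map_add])
  refine agree f₁ f₂ x ?_
  intro g hg r
  let f₃ : MonoidAlgebra K Q →+ K :=
    AddMonoidHom.mk' (fun y => ∑ w, tau σ u w (single g r) * tau σ w v y)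
    (fun a b => by
      simp only [map_add, mul_add]
      exact sum_add_distrib)
  let f₄ : MonoidAlgebra K Q →+ K := AddMonoidHom.mk' (fun y => tau σ u v (single g r * y))
    (fun a b => by rw [mul_add, map_add])
  refine agree f₃ f₄ y ?_
  intro k hk s
  show ∑ w, tau σ u w (single g r) * tau σ w v (single k s) = tau σ u v (single g r * single k s)
  rw [single_mul, tau_single, h g hg k hk]
  simp only [tau_single]
  rw [Finset.sum_eq_single (σ k v)]
  · by_cases h1 : σ g (σ k v) = u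
    · rw [if_pos h1, if_pos h1, if_pos rfl]
    · rw [if_neg h1, if_neg h1, zero_mul]
  · intro w _ hw
    have e : ¬ (σ k v = w) := fun h => hw h.symm
    rw [if_neg e, mul_zero]
  · intro h
    exact absurd (mem_univ _) h

variable {m : ℕ}

/-- the matrix over `K` of a matrix over `K[Q]` -/
def hat (A : Matrix (Fin m) (Fin m) (MonoidAlgebra K Q)) :
    Matrix (Fin m × Fin n) (Fin m × Fin n) K := fun p q => tau σ p.2 q.2 (A p.1 q.1)

theorem hat_apply (A : Matrix (Fin m) (Fin m) (MonoidAlgebra K Q)) (p q : Fin m × Fin n) :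
    hat σ A p q = tau σ p.2 q.2 (A p.1 q.1) := rfl

theorem hat_mul (A B : Matrix (Fin m) (Fin m) (MonoidAlgebra K Q)) (p q : Fin m × Fin n)
    (h : ∀ i j k l, ∀ g ∈ (A i j).coeff.support, ∀ h ∈ (B k l).coeff.support,
      σ (g * h) q.2 = σ g (σ h q.2)) :
    (hat σ A * hat σ B) p q = hat σ (A * B) p q := by
  have e1 : (hat σ A * hat σ B) p q =
      ∑ l : Fin m, ∑ w : Fin n, tau σ p.2 w (A p.1 l) * tau σ w q.2 (B l q.1) := by
    rw [Matrix.mul_apply, Fintype.sum_prod_type]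
    rfl
  have e2 : hat σ (A * B) p q = ∑ l : Fin m, tau σ p.2 q.2 (A p.1 l * B l q.1) := by
    rw [hat_apply, Matrix.mul_apply, map_sum]
  rw [e1, e2]
  refine sum_congr rfl fun l _ => ?_
  exact tau_mul σ _ _ _ _ (fun g hg k hk => h _ _ _ _ g hg k hk)

theorem hat_one (p q : Fin m × Fin n) (h : σ 1 q.2 = q.2) :
    hat σ (1 : Matrix (Fin m) (Fin m) (MonoidAlgebra K Q)) p q = (1 : Matrix _ _ K) p q := by
  rw [hat_apply, Matrix.one_apply, Matrix.one_apply]
  by_cases h1 : p.1 = q.1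
  · rw [if_pos h1]
    have e : (1 : MonoidAlgebra K Q) = single 1 1 := rfl
    rw [e, tau_single, h]
    by_cases h2 : p.2 = q.2
    · rw [if_pos h2.symm, if_pos (Prod.ext h1 h2)]
    · rw [if_neg (fun h3 => h2 h3.symm), if_neg (fun h3 => h2 (congrArg Prod.snd h3))]
  · rw [if_neg h1, if_neg (fun h3 => h1 (congrArg Prod.fst h3)), map_zero]

theorem hat_sub (A B : Matrix (Fin m) (Fin m) (MonoidAlgebra K Q)) :
    hat σ (A - B) = hat σ A - hat σ B := by
  ext p q
  rw [Matrix.sub_apply, hat_apply, hat_apply, hat_apply, Matrix.sub_apply, map_sub]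

end mat

section lin

variable {K : Type*} [Field K] {X : Type*} [Fintype X] [DecidableEq X]

/-- extension by zero -/
def iot (P : Finset X) : (P → K) →ₗ[K] (X → K) where
  toFun f x := if h : x ∈ P then f ⟨x, h⟩ else 0
  map_add' f g := by
    funext x
    by_cases h : x ∈ P <;> simp [h]
  map_smul' c f := by
    funext x
    by_cases h : x ∈ P <;> simp [h]

omit [Fintype X] in
theorem iot_of_mem {P : Finset X} (f : P → K) {x : X} (h : x ∈ P) : iot P f x = f ⟨x, h⟩ :=
  dif_pos h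

omit [Fintype X] in
theorem iot_of_not_mem {P : Finset X} (f : P → K) {x : X} (h : x ∉ P) : iot P f x = 0 :=
  dif_neg h

theorem mulVec_congr {M M' : Matrix X X K} {P : Finset X} (h : ∀ p, ∀ q ∈ P, M p q = M' p q)
    {w : X → K} (hw : ∀ x, x ∉ P → w x = 0) : M.mulVec w = M'.mulVec w := by
  funext p
  show ∑ q, M p q * w q = ∑ q, M' p q * w q
  refine sum_congr rfl fun q _ => ?_
  by_cases hq : q ∈ P
  · rw [h p q hq]
  · rw [hw q hq, mul_zero, mul_zero]

/-- dimension count -/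
theorem dim_count (A B Z : Matrix X X K) (P D : Finset X)
    (h1 : ∀ p, ∀ q ∈ P, (A * B) p q = (1 : Matrix X X K) p q)
    (h2 : ∀ p, ∀ q ∈ P, Z p q = (1 - B * A : Matrix X X K) p q)
    (h3 : ∀ d : D → K, Z.mulVec (iot D d) = 0 → d = 0) :
    2 * P.card + D.card ≤ 2 * Fintype.card X := by
  let Φ : ((P → K) × (P → K) × (D → K)) →ₗ[K] (X → K) × (X → K) :=
    { toFun := fun t => (iot P t.1 - B.mulVec (iot P t.2.1), B.mulVec (iot P t.2.1) - iot D t.2.2)
      map_add' := fun s t => by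
        simp only [Prod.fst_add, Prod.snd_add, map_add, Matrix.mulVec_add, Prod.mk_add_mk]
        congr 1 <;> abel
      map_smul' := fun c t => by
        simp only [Prod.smul_fst, Prod.smul_snd, map_smul, Matrix.mulVec_smul, Prod.smul_mk,
          smul_sub, RingHom.id_apply] }
  have hinj : Function.Injective Φ := by
    rw [← LinearMap.ker_eq_bot, LinearMap.ker_eq_bot']
    rintro ⟨a, b, d⟩ h
    have e1 : iot P a - B.mulVec (iot P b) = 0 := congrArg Prod.fst h
    have e2 : B.mulVec (iot P b) - iot D d = 0 := congrArg Prod.snd h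
    rw [sub_eq_zero] at e1 e2
    have hP : ∀ f : P → K, (A * B).mulVec (iot P f) = iot P f := by
      intro f
      rw [mulVec_congr h1 (fun x hx => iot_of_not_mem f hx), Matrix.one_mulVec]
    have e3 : (B * A).mulVec (iot P a) = iot P a := by
      rw [e1, ← Matrix.mulVec_mulVec, Matrix.mulVec_mulVec _ A B, hP]
    have e4 : Z.mulVec (iot P a) = 0 := by
      rw [mulVec_congr h2 (fun x hx => iot_of_not_mem a hx), Matrix.sub_mulVec,
        Matrix.one_mulVec, e3, sub_self]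
    have e5 : d = 0 := by
      apply h3
      rw [← e2, ← e1]
      exact e4
    have e6 : B.mulVec (iot P b) = 0 := by rw [e2, e5, map_zero]
    have e7 : iot P b = 0 := by
      rw [← hP b, ← Matrix.mulVec_mulVec, e6, Matrix.mulVec_zero]
    have e8 : iot P a = 0 := by rw [e1, e6]
    have z : ∀ f : P → K, iot P f = 0 → f = 0 := by
      intro f hf
      funext x
      have := congrFun hf x
      rw [iot_of_mem f x.2] at this
      exact this
    rw [z a e8, z b e7, e5]
    rfl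
  have hle := LinearMap.finrank_le_finrank_of_injective hinj
  rw [Module.finrank_prod, Module.finrank_prod, Module.finrank_prod,
    Module.finrank_fintype_fun_eq_card, Module.finrank_fintype_fun_eq_card,
    Module.finrank_fintype_fun_eq_card, Fintype.card_coe, Fintype.card_coe] at hle
  omega

end lin

/-- greedy choice -/
theorem greedy {V : Type*} [Fintype V] [DecidableEq V] (N : Finset V) (Rel : V → V → Prop)
    (hsym : ∀ v w, Rel v w → Rel w v) (c : ℕ) (E : V → Finset V)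
    (hE : ∀ v w, Rel v w → w ∈ E v) (hc : ∀ v, (E v).card ≤ c) :
    ∃ D ⊆ N, (∀ v ∈ D, ∀ w ∈ D, v ≠ w → ¬ Rel v w) ∧ N.card ≤ D.card * (c + 1) := by
  classical
  let S : Finset (Finset V) := N.powerset.filter (fun D => ∀ v ∈ D, ∀ w ∈ D, v ≠ w → ¬ Rel v w)
  have hS : S.Nonempty := ⟨∅, by simp [S]⟩
  obtain ⟨D, hD, hmax⟩ := exists_max_image S card hS
  have hD' := mem_filter.1 hD
  refine ⟨D, mem_powerset.1 hD'.1, hD'.2, ?_⟩
  have hsub : N ⊆ D.biUnion (fun v => insert v (E v)) := by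
    intro v hv
    by_contra hcon
    rw [mem_biUnion] at hcon
    push Not at hcon
    have hvD : v ∉ D := fun h => hcon v h (mem_insert_self _ _)
    have hnot : ∀ w ∈ D, ¬ Rel w v := fun w hw h =>
      hcon w hw (mem_insert_of_mem (hE w v h))
    have h1 : insert v D ∈ S := by
      refine mem_filter.2 ⟨mem_powerset.2 (insert_subset hv (mem_powerset.1 hD'.1)), ?_⟩
      intro a ha b hb hab
      rcases mem_insert.1 ha with ha1 | ha1
      · rcases mem_insert.1 hb with hb1 | hb1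
        · exact absurd (ha1.trans hb1.symm) hab
        · rw [ha1]
          exact fun h => hnot b hb1 (hsym _ _ h)
      · rcases mem_insert.1 hb with hb1 | hb1
        · rw [hb1]
          exact hnot a ha1
        · exact hD'.2 a ha1 b hb1 hab
    have h2 := hmax _ h1
    rw [card_insert_of_notMem hvD] at h2
    omega
  calc N.card ≤ (D.biUnion (fun v => insert v (E v))).card := card_le_card hsub
    _ ≤ D.card * (c + 1) := by
        refine card_biUnion_le_card_mul _ _ _ fun v _ => ?_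
        exact (card_insert_le _ _).trans (Nat.add_le_add_right (hc v) 1)

/-- the algebraic part: the set `D` is small -/
theorem card_D_le {K : Type*} [Field K] {Q : Type*} [Group Q] {m n : ℕ}
    (σ : Q → Equiv.Perm (Fin n)) (A B Z : Matrix (Fin m) (Fin m) (MonoidAlgebra K Q))
    (hAB : A * B = 1) (hZ : Z = 1 - B * A) (i₀ j₀ : Fin m) (g₀ : Q)
    (hg₀ : g₀ ∈ (Z i₀ j₀).coeff.support) (F₀ : Finset Q)
    (hFA : ∀ i j, ∀ g ∈ (A i j).coeff.support, g ∈ F₀)
    (hFB : ∀ i j, ∀ g ∈ (B i j).coeff.support, g ∈ F₀) (Bad : Finset (Fin n))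
    (hgood : ∀ v, v ∉ Bad → ∀ g ∈ F₀, ∀ h ∈ F₀, σ (g * h) v = σ g (σ h v))
    (hone : ∀ v, v ∉ Bad → σ 1 v = v) (D : Finset (Fin n))
    (hnice : ∀ v ∈ D, ∀ g ∈ (Z i₀ j₀).coeff.support, σ g v = σ g₀ v → g = g₀)
    (hDind : ∀ v ∈ D, ∀ w ∈ D, w ≠ v → ∀ g ∈ (Z i₀ j₀).coeff.support, σ g w ≠ σ g₀ v) :
    D.card ≤ 2 * (m * Bad.card) := by
  classical
  let P : Finset (Fin m × Fin n) := univ ×ˢ (univ \ Bad)
  let D' : Finset (Fin m × Fin n) := {j₀} ×ˢ D
  have h1 : ∀ p, ∀ q ∈ P, (hat σ A * hat σ B) p q = (1 : Matrix (Fin m × Fin n) _ K) p q := by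
    intro p q hq
    have hqB : q.2 ∉ Bad := (mem_sdiff.1 (mem_product.1 hq).2).2
    rw [hat_mul σ A B p q (fun i j k l g hg h hh =>
      hgood _ hqB g (hFA _ _ g hg) h (hFB _ _ h hh)), hAB, hat_one σ p q (hone _ hqB)]
  have h2 : ∀ p, ∀ q ∈ P, hat σ Z p q =
      (1 - hat σ B * hat σ A : Matrix (Fin m × Fin n) (Fin m × Fin n) K) p q := by
    intro p q hq
    have hqB : q.2 ∉ Bad := (mem_sdiff.1 (mem_product.1 hq).2).2
    rw [hZ, hat_sub, Matrix.sub_apply, Matrix.sub_apply, hat_one σ p q (hone _ hqB),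
      hat_mul σ B A p q (fun i j k l g hg h hh =>
        hgood _ hqB g (hFB _ _ g hg) h (hFA _ _ h hh))]
  have h3 : ∀ d : D' → K, (hat σ Z).mulVec (iot D' d) = 0 → d = 0 := by
    intro d hd
    funext x
    obtain ⟨⟨j, v⟩, hx⟩ := x
    have hj : j = j₀ := mem_singleton.1 (mem_product.1 hx).1
    subst hj
    have hvD : v ∈ D := (mem_product.1 hx).2
    have e1 := congrFun hd (i₀, σ g₀ v)
    have e2 : (hat σ Z).mulVec (iot D' d) (i₀, σ g₀ v) =
        (Z i₀ j).coeff g₀ * d ⟨(j, v), hx⟩ := by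
      show ∑ q, hat σ Z (i₀, σ g₀ v) q * iot D' d q = _
      rw [Finset.sum_eq_single (j, v)]
      · rw [iot_of_mem d hx]
        congr 1
        rw [hat_apply]
        let f₂ : MonoidAlgebra K Q →+ K := (Finsupp.applyAddHom g₀).comp
          (MonoidAlgebra.coeffAddEquiv (R := K) (M := Q)).toAddMonoidHom
        have e3 : tau σ (σ g₀ v) v (Z i₀ j) = f₂ (Z i₀ j) := by
          apply agree
          intro g hg r
          rw [tau_single]
          show _ = (single g r : MonoidAlgebra K Q).coeff g₀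
          rw [coeff_single, Finsupp.single_apply]
          have e4 : σ g v = σ g₀ v ↔ g = g₀ :=
            ⟨hnice v hvD g hg, fun h => by rw [h]⟩
          simp only [e4]
        exact e3
      · intro q _ hq
        by_cases hqD : q ∈ D'
        · obtain ⟨j', w⟩ := q
          have hj' : j' = j := mem_singleton.1 (mem_product.1 hqD).1
          subst hj'
          have hwD : w ∈ D := (mem_product.1 hqD).2
          have hvw : w ≠ v := fun h => hq (by rw [h])
          have e4 : hat σ Z (i₀, σ g₀ v) (j', w) = 0 := by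
            rw [hat_apply]
            have e3 : tau σ (σ g₀ v) w (Z i₀ j') = (0 : MonoidAlgebra K Q →+ K) (Z i₀ j') := by
              apply agree
              intro g hg r
              rw [tau_single, if_neg (hDind v hvD w hwD hvw g hg)]
              rfl
            exact e3
          rw [e4, zero_mul]
        · rw [iot_of_not_mem d hqD, mul_zero]
      · intro h
        exact absurd (mem_univ _) h
    rw [e2] at e1
    have e3 : (Z i₀ j).coeff g₀ ≠ 0 := Finsupp.mem_support_iff.1 hg₀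
    rcases mul_eq_zero.1 e1 with h4 | h4
    · exact absurd h4 e3
    · exact h4
  have hcount := dim_count (hat σ A) (hat σ B) (hat σ Z) P D' h1 h2 h3
  have hP : P.card + m * Bad.card = m * n := by
    have h1 : P.card = m * (univ \ Bad).card := by
      rw [card_product, card_univ, Fintype.card_fin]
    have h2 : (univ \ Bad).card + Bad.card = n := by
      rw [card_sdiff_add_card_eq_card (subset_univ _), card_univ, Fintype.card_fin]
    rw [h1, ← Nat.mul_add, h2]
  have hD' : D'.card = D.card := by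
    rw [card_product, card_singleton, one_mul]
  rw [Fintype.card_prod, Fintype.card_fin, Fintype.card_fin, hD'] at hcount
  omega

/-- the combinatorial part: the set `D` is large -/
theorem exists_D {Q : Type*} [Group Q] {n : ℕ} (σ : Q → Equiv.Perm (Fin n)) (S F₀ : Finset Q)
    (g₀ : Q) (hg₀ : g₀ ∈ S) (hFS : ∀ g ∈ S, g ∈ F₀) (hFS' : ∀ g ∈ S, g₀⁻¹ * g ∈ F₀)
    (hFg : g₀⁻¹ ∈ F₀) (Bad : Finset (Fin n))
    (hgood : ∀ v, v ∉ Bad → ∀ g ∈ F₀, ∀ h ∈ F₀, σ (g * h) v = σ g (σ h v))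
    (hone : ∀ v, v ∉ Bad → σ 1 v = v) (δ : ℝ) (hδ : 0 ≤ δ)
    (hfix : ∀ g ∈ F₀, g ≠ 1 → ((univ.filter (fun v => σ g v = v)).card : ℝ) ≤ δ) :
    ∃ D : Finset (Fin n), (∀ v ∈ D, ∀ g ∈ S, σ g v = σ g₀ v → g = g₀) ∧
      (∀ v ∈ D, ∀ w ∈ D, w ≠ v → ∀ g ∈ S, σ g w ≠ σ g₀ v) ∧
      (n : ℝ) ≤ D.card * (2 * S.card + 1) + Bad.card + S.card * δ := by
  classical
  let Fix : Finset (Fin n) := (S.erase g₀).biUnion
    (fun g => univ.filter (fun v => σ (g₀⁻¹ * g) v = v))
  have hFix : (Fix.card : ℝ) ≤ S.card * δ := by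
    have h1 : (Fix.card : ℝ) ≤ ∑ g ∈ S.erase g₀,
        ((univ.filter (fun v => σ (g₀⁻¹ * g) v = v)).card : ℝ) := by
      exact_mod_cast card_biUnion_le
    refine h1.trans ?_
    have h2 : ∀ g ∈ S.erase g₀, ((univ.filter (fun v => σ (g₀⁻¹ * g) v = v)).card : ℝ) ≤ δ :=
      fun g hg => by
        refine hfix _ (hFS' g (mem_of_mem_erase hg)) ?_
        intro h3
        exact ne_of_mem_erase hg (inv_mul_eq_one.1 h3).symm
    refine (sum_le_sum h2).trans ?_
    rw [sum_const, nsmul_eq_mul]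
    apply mul_le_mul_of_nonneg_right _ hδ
    exact_mod_cast card_le_card (erase_subset _ _)
  let N : Finset (Fin n) := (univ \ Bad) \ Fix
  have hNcard : (n : ℝ) ≤ N.card + Bad.card + Fix.card := by
    have h1 : (univ : Finset (Fin n)) ⊆ N ∪ Bad ∪ Fix := by
      intro v _
      by_cases h1 : v ∈ Bad
      · exact mem_union_left _ (mem_union_right _ h1)
      · by_cases h2 : v ∈ Fix
        · exact mem_union_right _ h2
        · exact mem_union_left _ (mem_union_left _
            (mem_sdiff.2 ⟨mem_sdiff.2 ⟨mem_univ _, h1⟩, h2⟩))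
    have h2 := (card_le_card h1).trans ((card_union_le _ _).trans
      (Nat.add_le_add_right (card_union_le _ _) _))
    rw [card_univ, Fintype.card_fin] at h2
    exact_mod_cast h2
  have hnice : ∀ v ∈ N, ∀ g ∈ S, σ g v = σ g₀ v → g = g₀ := by
    intro v hv g hg h1
    by_contra hne
    have hvB : v ∉ Bad := (mem_sdiff.1 (mem_sdiff.1 hv).1).2
    have hvF : v ∉ Fix := (mem_sdiff.1 hv).2
    apply hvF
    refine mem_biUnion.2 ⟨g, mem_erase.2 ⟨hne, hg⟩, mem_filter.2 ⟨mem_univ _, ?_⟩⟩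
    rw [hgood v hvB g₀⁻¹ hFg g (hFS g hg), h1,
      ← hgood v hvB g₀⁻¹ hFg g₀ (hFS g₀ hg₀), inv_mul_cancel]
    exact hone v hvB
  obtain ⟨D, hDN, hDind, hDcard⟩ := greedy N
    (fun v w => ∃ g ∈ S, σ g v = σ g₀ w ∨ σ g w = σ g₀ v)
    (fun v w ⟨g, hg, h⟩ => ⟨g, hg, h.symm⟩) (2 * S.card)
    (fun v => S.image (fun g => (σ g₀).symm (σ g v)) ∪ S.image (fun g => (σ g).symm (σ g₀ v)))
    (by
      rintro v w ⟨g, hg, h | h⟩
      · exact mem_union_left _ (mem_image.2 ⟨g, hg, by rw [h, Equiv.symm_apply_apply]⟩)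
      · exact mem_union_right _ (mem_image.2 ⟨g, hg, by rw [← h, Equiv.symm_apply_apply]⟩))
    (by
      intro v
      refine (card_union_le _ _).trans ?_
      have h1 : (S.image (fun g => (σ g₀).symm (σ g v))).card ≤ S.card := card_image_le
      have h2 : (S.image (fun g => (σ g).symm (σ g₀ v))).card ≤ S.card := card_image_le
      omega)
  refine ⟨D, fun v hv => hnice v (hDN hv), fun v hv w hw hne g hg h =>
    hDind w hw v hv hne ⟨g, hg, Or.inl h⟩, ?_⟩
  have h1 : (N.card : ℝ) ≤ D.card * (2 * S.card + 1) := by exact_mod_cast hDcard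
  linarith

/-- group algebras of sofic groups over fields are stably finite -/
theorem stablyFinite_of_sofic {K : Type*} [Field K] {Q : Type*} [Group Q] (hQ : IsSofic Q) :
    StablyFinite (MonoidAlgebra K Q) := by
  classical
  intro m _ A B hAB
  by_contra hBA
  obtain ⟨Z, hZ⟩ : ∃ Z : Matrix (Fin m) (Fin m) (MonoidAlgebra K Q), Z = 1 - B * A := ⟨_, rfl⟩
  have hZ0 : Z ≠ 0 := fun h => hBA (sub_eq_zero.1 (hZ ▸ h)).symm
  obtain ⟨i₀, j₀, hij⟩ : ∃ i j, Z i j ≠ 0 := by
    by_contra hcon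
    push Not at hcon
    exact hZ0 (by ext i j; rw [hcon i j]; rfl)
  obtain ⟨g₀, hg₀⟩ : ∃ g₀, g₀ ∈ (Z i₀ j₀).coeff.support := by
    have h1 : (Z i₀ j₀).coeff ≠ 0 := fun h => hij (MonoidAlgebra.coeff_eq_zero.1 h)
    exact Finsupp.support_nonempty_iff.2 h1
  obtain ⟨S, hS⟩ : ∃ S, S = (Z i₀ j₀).coeff.support := ⟨_, rfl⟩
  obtain ⟨F₀, hFA, hFB, hFS, hFS', hF1, hFg⟩ : ∃ F₀ : Finset Q,
      (∀ i j, ∀ g ∈ (A i j).coeff.support, g ∈ F₀) ∧
      (∀ i j, ∀ g ∈ (B i j).coeff.support, g ∈ F₀) ∧ (∀ g ∈ S, g ∈ F₀) ∧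
      (∀ g ∈ S, g₀⁻¹ * g ∈ F₀) ∧ (1 : Q) ∈ F₀ ∧ g₀⁻¹ ∈ F₀ := by
    refine ⟨((univ : Finset (Fin m × Fin m)).biUnion (fun p => (A p.1 p.2).coeff.support)) ∪
      (((univ : Finset (Fin m × Fin m)).biUnion (fun p => (B p.1 p.2).coeff.support)) ∪
      (S ∪ (S.image (fun g => g₀⁻¹ * g) ∪ {1, g₀⁻¹}))), ?_, ?_, ?_, ?_, ?_, ?_⟩
    · intro i j g hg
      exact mem_union_left _ (mem_biUnion.2 ⟨(i, j), mem_univ _, hg⟩)
    · intro i j g hg
      exact mem_union_right _ (mem_union_left _ (mem_biUnion.2 ⟨(i, j), mem_univ _, hg⟩))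
    · intro g hg
      exact mem_union_right _ (mem_union_right _ (mem_union_left _ hg))
    · intro g hg
      exact mem_union_right _ (mem_union_right _ (mem_union_right _ (mem_union_left _
        (mem_image.2 ⟨g, hg, rfl⟩))))
    · exact mem_union_right _ (mem_union_right _ (mem_union_right _ (mem_union_right _
        (mem_insert_self _ _))))
    · exact mem_union_right _ (mem_union_right _ (mem_union_right _ (mem_union_right _
        (mem_insert_of_mem (mem_singleton_self _)))))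
  obtain ⟨f, hf⟩ : ∃ f : ℕ, f = F₀.card := ⟨_, rfl⟩
  obtain ⟨s, hs⟩ : ∃ s : ℕ, s = S.card := ⟨_, rfl⟩
  obtain ⟨c₀, hc₀⟩ : ∃ c₀ : ℝ, c₀ = (f : ℝ) * f + s + (2 * s + 1) * (2 * m * (f * f)) := ⟨_, rfl⟩
  have hc0 : 0 ≤ c₀ := by rw [hc₀]; positivity
  obtain ⟨n, hn, σ, hσ1, hσ2⟩ := hQ F₀ (1 / (2 * (c₀ + 1))) (by positivity)
  obtain ⟨δ, hδ⟩ : ∃ δ : ℝ, δ = 1 / (2 * (c₀ + 1)) * n := ⟨_, rfl⟩
  rw [← hδ] at hσ1 hσ2
  have hn' : (0 : ℝ) < n := by exact_mod_cast hn
  have hδ0 : 0 ≤ δ := by rw [hδ]; positivity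
  obtain ⟨Bad, hBad, hgood⟩ : ∃ Bad : Finset (Fin n), (Bad.card : ℝ) ≤ (f * f) * δ ∧
      ∀ v, v ∉ Bad → ∀ g ∈ F₀, ∀ h ∈ F₀, σ (g * h) v = σ g (σ h v) := by
    refine ⟨(F₀ ×ˢ F₀).biUnion
      (fun p => univ.filter (fun v => σ (p.1 * p.2) v ≠ σ p.1 (σ p.2 v))), ?_, ?_⟩
    · have h1 : (((F₀ ×ˢ F₀).biUnion
          (fun p => univ.filter (fun v => σ (p.1 * p.2) v ≠ σ p.1 (σ p.2 v)))).card : ℝ) ≤
          ∑ p ∈ F₀ ×ˢ F₀,
            ((univ.filter (fun v => σ (p.1 * p.2) v ≠ σ p.1 (σ p.2 v))).card : ℝ) := by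
        exact_mod_cast card_biUnion_le
      refine h1.trans ?_
      have h2 : ∀ p ∈ F₀ ×ˢ F₀,
          ((univ.filter (fun v => σ (p.1 * p.2) v ≠ σ p.1 (σ p.2 v))).card : ℝ) ≤ δ := fun p hp =>
        hσ1 _ (mem_product.1 hp).1 _ (mem_product.1 hp).2
      refine (sum_le_sum h2).trans ?_
      rw [sum_const, nsmul_eq_mul, card_product, ← hf]
      push_cast
      exact le_rfl
    · intro v hv g hg h hh
      by_contra hcon
      exact hv (mem_biUnion.2 ⟨(g, h), mem_product.2 ⟨hg, hh⟩, mem_filter.2 ⟨mem_univ _, hcon⟩⟩)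
  have hone : ∀ v, v ∉ Bad → σ 1 v = v := by
    intro v hv
    have h1 := hgood v hv 1 hF1 1 hF1
    rw [mul_one] at h1
    exact ((σ 1).injective h1).symm
  obtain ⟨D, hD1, hD2, hD3⟩ := exists_D σ S F₀ g₀ (hS ▸ hg₀) hFS hFS' hFg Bad hgood hone δ hδ0
    (fun g hg h1 => hσ2 g hg h1)
  subst hS
  have hDle := card_D_le σ A B Z hAB hZ i₀ j₀ g₀ hg₀ F₀ hFA hFB Bad hgood hone D hD1 hD2
  rw [← hs] at hD3
  have hDle' : (D.card : ℝ) ≤ 2 * (m * Bad.card) := by exact_mod_cast hDle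
  have h1 : (D.card : ℝ) ≤ 2 * (m * ((f * f) * δ)) := by
    refine hDle'.trans ?_
    gcongr
  have h2 : (D.card : ℝ) * (2 * s + 1) ≤ 2 * (m * ((f * f) * δ)) * (2 * s + 1) :=
    mul_le_mul_of_nonneg_right h1 (by positivity)
  have h3 : (n : ℝ) ≤ c₀ * δ := by
    calc (n : ℝ) ≤ D.card * (2 * s + 1) + Bad.card + s * δ := hD3
      _ ≤ 2 * (m * ((f * f) * δ)) * (2 * s + 1) + (f * f) * δ + s * δ := by linarith
      _ = c₀ * δ := by rw [hc₀]; ring
  have h5 : c₀ * δ ≤ 1 / 2 * n := by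
    have h6 : c₀ * δ = (c₀ / (2 * (c₀ + 1))) * n := by rw [hδ]; ring
    rw [h6]
    apply mul_le_mul_of_nonneg_right _ hn'.le
    rw [div_le_iff₀ (by positivity)]
    linarith
  linarith

end

end Vale.Agent.P194
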