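import Vale.Agent.P194.ZStep
import Vale.Agent.P194.Sofic

/-!
P194: local embeddability, free and central kernels, and the class `Built`.
-/

namespace Vale.Agent.P194

open MonoidAlgebra

noncomputable section

theorem map_mul_of_supp {R : Type*} [Ring R] {G H : Type*} [Group G] [Group H] (φ : G → H)
    (x y : MonoidAlgebra R G)
    (h : ∀ g ∈ x.coeff.support, ∀ k ∈ y.coeff.support, φ (g * k) = φ g * φ k) :
    mapDomain φ x * mapDomain φ y = mapDomain φ (x * y) := by
  let f₁ : MonoidAlgebra R G →+ MonoidAlgebra R H :=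
    AddMonoidHom.mk' (fun x => mapDomain φ x * mapDomain φ y)
      (fun a b => by rw [mapDomain_add, add_mul])
  let f₂ : MonoidAlgebra R G →+ MonoidAlgebra R H :=
    AddMonoidHom.mk' (fun x => mapDomain φ (x * y)) (fun a b => by rw [add_mul, mapDomain_add])
  refine agree f₁ f₂ x ?_
  intro g hg r
  let f₃ : MonoidAlgebra R G →+ MonoidAlgebra R H :=
    AddMonoidHom.mk' (fun y => mapDomain φ (single g r) * mapDomain φ y)
      (fun a b => by rw [mapDomain_add, mul_add])
  let f₄ : MonoidAlgebra R G →+ MonoidAlgebra R H :=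
    AddMonoidHom.mk' (fun y => mapDomain φ (single g r * y))
      (fun a b => by rw [mul_add, mapDomain_add])
  refine agree f₃ f₄ y ?_
  intro k hk s
  show mapDomain φ (single g r) * mapDomain φ (single k s) = mapDomain φ (single g r * single k s)
  rw [mapDomain_single, mapDomain_single, single_mul, single_mul, mapDomain_single, h g hg k hk]

theorem map_inj_of_supp {R : Type*} [Ring R] {G H : Type*} [Group G] [Group H] (φ : G → H)
    (F : Finset G) (hφ : Set.InjOn φ F) (x y : MonoidAlgebra R G)
    (hx : x.coeff.support ⊆ F) (hy : y.coeff.support ⊆ F)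
    (h : mapDomain φ x = mapDomain φ y) : x = y := by
  classical
  have h1 : ∀ z : MonoidAlgebra R G, z.coeff.support ⊆ F → ∀ g ∈ F,
      (mapDomain φ z).coeff (φ g) = z.coeff g := by
    intro z hz g hg
    exact Finsupp.mapDomain_apply' (F : Set G) z.coeff (by exact_mod_cast hz) hφ
      (Finset.mem_coe.2 hg)
  ext g
  by_cases hg : g ∈ F
  · rw [← h1 x hx g hg, ← h1 y hy g hg, h]
  · have e1 : x.coeff g = 0 := Finsupp.notMem_support_iff.1 fun h => hg (hx h)
    have e2 : y.coeff g = 0 := Finsupp.notMem_support_iff.1 fun h => hg (hy h)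
    rw [e1, e2]

/-- stable finiteness passes to locally embeddable groups -/
theorem stab_limit {R : Type*} [Ring R] {G : Type*} [Group G] (H : Finset G → Type*)
    [∀ F, Group (H F)] (φ : ∀ F, G → H F) (hinj : ∀ F, Set.InjOn (φ F) F)
    (hmul : ∀ F, ∀ a ∈ F, ∀ b ∈ F, φ F (a * b) = φ F a * φ F b)
    (hS : ∀ F, StablyFinite (MonoidAlgebra R (H F))) : StablyFinite (MonoidAlgebra R G) := by
  classical
  intro n hn A B hAB
  let E : Finset G := insert 1 ((Finset.univ.biUnion
      (fun p : Fin n × Fin n => (A p.1 p.2).coeff.support)) ∪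
    (Finset.univ.biUnion (fun p : Fin n × Fin n => (B p.1 p.2).coeff.support)))
  let F : Finset G := E ∪ (E ×ˢ E).image (fun p => p.1 * p.2)
  have hA : ∀ i j, ∀ g ∈ (A i j).coeff.support, g ∈ E := fun i j g hg =>
    Finset.mem_insert_of_mem (Finset.mem_union_left _
      (Finset.mem_biUnion.2 ⟨(i, j), Finset.mem_univ _, hg⟩))
  have hB : ∀ i j, ∀ g ∈ (B i j).coeff.support, g ∈ E := fun i j g hg =>
    Finset.mem_insert_of_mem (Finset.mem_union_right _
      (Finset.mem_biUnion.2 ⟨(i, j), Finset.mem_univ _, hg⟩))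
  have hEF : ∀ g ∈ E, g ∈ F := fun g hg => Finset.mem_union_left _ hg
  have h1F : (1 : G) ∈ F := hEF 1 (Finset.mem_insert_self _ _)
  have hφ1 : φ F 1 = 1 := by
    have h1 := hmul F 1 h1F 1 h1F
    rw [mul_one] at h1
    exact (mul_eq_left.1 h1.symm)
  have hone : ∀ i j, mapDomain (φ F) ((1 : Matrix (Fin n) (Fin n) (MonoidAlgebra R G)) i j) =
      (1 : Matrix (Fin n) (Fin n) (MonoidAlgebra R (H F))) i j := by
    intro i j
    rw [Matrix.one_apply, Matrix.one_apply]
    split_ifs
    · have e : (1 : MonoidAlgebra R G) = single 1 1 := rfl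
      rw [e, mapDomain_single, hφ1]
      rfl
    · exact mapDomain_zero _
  have hprod : ∀ (X Y : Matrix (Fin n) (Fin n) (MonoidAlgebra R G)),
      (∀ i j, ∀ g ∈ (X i j).coeff.support, g ∈ E) → (∀ i j, ∀ g ∈ (Y i j).coeff.support, g ∈ E) →
      ∀ i j, (X.map (mapDomain (φ F)) * Y.map (mapDomain (φ F))) i j =
        mapDomain (φ F) ((X * Y) i j) := by
    intro X Y hX hY i j
    rw [Matrix.mul_apply, Matrix.mul_apply]
    simp only [Matrix.map_apply]
    let f : MonoidAlgebra R G →+ MonoidAlgebra R (H F) :=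
      AddMonoidHom.mk' (mapDomain (φ F)) (fun a b => mapDomain_add _ a b)
    have e : mapDomain (φ F) (∑ l, X i l * Y l j) = ∑ l, f (X i l * Y l j) := by
      show f _ = _
      rw [map_sum]
    rw [e]
    refine Finset.sum_congr rfl fun l _ => ?_
    exact map_mul_of_supp (φ F) _ _ (fun g hg k hk =>
      hmul F g (hEF g (hX _ _ g hg)) k (hEF k (hY _ _ k hk)))
  have h1 : A.map (mapDomain (φ F)) * B.map (mapDomain (φ F)) = 1 :=
    Matrix.ext fun i j => by rw [hprod A B hA hB i j, hAB, hone]
  have h2 := hS F n hn _ _ h1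
  refine Matrix.ext fun i j => ?_
  have h3 : mapDomain (φ F) ((B * A) i j) =
      mapDomain (φ F) ((1 : Matrix (Fin n) (Fin n) (MonoidAlgebra R G)) i j) := by
    rw [← hprod B A hB hA i j, hone]
    exact congrFun (congrFun h2 i) j
  refine map_inj_of_supp (φ F) F (hinj F) _ _ ?_ ?_ h3
  · rw [Matrix.mul_apply]
    intro g hg
    rw [MonoidAlgebra.coeff_sum] at hg
    obtain ⟨l, _, hl⟩ := Finset.mem_biUnion.1 (Finsupp.support_finsetSum hg)
    have h4 := MonoidAlgebra.support_coeff_mul_subset _ _ hl
    obtain ⟨a, ha, b, hb, rfl⟩ := Finset.mem_mul.1 h4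
    exact Finset.mem_union_right _ (Finset.mem_image.2 ⟨(a, b), Finset.mem_product.2
      ⟨hB _ _ a ha, hA _ _ b hb⟩, rfl⟩)
  · rw [Matrix.one_apply]
    split_ifs
    · intro g hg
      have e : (1 : MonoidAlgebra R G) = single 1 1 := rfl
      rw [e, coeff_single] at hg
      have := Finsupp.support_single_subset hg
      rw [Finset.mem_singleton.1 this]
      exact h1F
    · intro g hg
      simp at hg

/-- all groups in the class have stably finite group algebras in characteristic `p` -/
theorem stab_built {p : ℕ} [Fact p.Prime] {K : Type*} [Field K] [CharP K p] {G : Type*}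
    [Group G] (h : Built p G) : StablyFinite (MonoidAlgebra K G) := by
  induction h with
  | sofic G h => exact stablyFinite_of_sofic h
  | ext G N hN _ ih => exact stab_ext vp_p hN ih
  | limit G H φ h1 h2 _ ih => exact stab_limit H φ h1 h2 ih

end

end Vale.Agent.P194
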