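import Vale.Agent.P194.Step
import Vale.Agent.P194.Defs

/-!
P194: extensions; direct and stable finiteness pass from `R[G ⧸ N]` to `R[G]`.
-/

namespace Vale.Agent.P194

open MonoidAlgebra

noncomputable section

variable {R : Type*} [Ring R] {G : Type*} [Group G]

/-- elements that die modulo `M` die modulo the normal closure of a finite subset of `M` -/
theorem cs_fin {M : Subgroup G} (hM : M.Normal) {ι : Type*} [Fintype ι]
    (e : ι → MonoidAlgebra R G) (h : ∀ i g, cs M g (e i) = 0) : ∃ E : Finset G,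
      Subgroup.normalClosure (E : Set G) ≤ M ∧
      ∀ i g, cs (Subgroup.normalClosure (E : Set G)) g (e i) = 0 := by
  classical
  let F : Finset G := Finset.univ.biUnion (fun i => (e i).coeff.support)
  let E : Finset G := ((F ×ˢ F).image (fun p => p.1⁻¹ * p.2)).filter (fun x => x ∈ M)
  have hEM : (E : Set G) ⊆ M := fun x hx => (Finset.mem_filter.1 (Finset.mem_coe.1 hx)).2
  have hle : Subgroup.normalClosure (E : Set G) ≤ M := Subgroup.normalClosure_le_normal hEM
  refine ⟨E, hle, fun i g => ?_⟩
  have hmem : ∀ j, j ∈ (e i).coeff.support → j ∈ F := fun j hj =>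
    Finset.mem_biUnion.2 ⟨i, Finset.mem_univ _, hj⟩
  by_cases hex : ∃ h₀ ∈ (e i).coeff.support,
      g⁻¹ * h₀ ∈ Subgroup.normalClosure (E : Set G)
  · obtain ⟨h₀, hh₀, hg⟩ := hex
    rw [← h i h₀]
    apply agree
    intro k hk r
    rw [cs_single, cs_single]
    have e1 : g⁻¹ * k ∈ Subgroup.normalClosure (E : Set G) ↔ h₀⁻¹ * k ∈ M := by
      have h1 : h₀⁻¹ * k = (g⁻¹ * h₀)⁻¹ * (g⁻¹ * k) := by group
      constructor
      · intro h2
        apply hle
        rw [h1]
        exact Subgroup.mul_mem _ (Subgroup.inv_mem _ hg) h2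
      · intro h2
        have h3 : h₀⁻¹ * k ∈ Subgroup.normalClosure (E : Set G) := by
          apply Subgroup.subset_normalClosure
          apply Finset.mem_coe.2
          exact Finset.mem_filter.2 ⟨Finset.mem_image.2 ⟨(h₀, k), Finset.mem_product.2
            ⟨hmem _ hh₀, hmem _ hk⟩, rfl⟩, h2⟩
        have h4 : g⁻¹ * k = (g⁻¹ * h₀) * (h₀⁻¹ * k) := by group
        rw [h4]
        exact Subgroup.mul_mem _ hg h3
    simp only [e1]
  · push Not at hex
    have h1 : cs (Subgroup.normalClosure (E : Set G)) g (e i) =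
        (0 : MonoidAlgebra R G →+ R) (e i) := by
      apply agree
      intro k hk r
      rw [cs_single, if_neg (hex k hk)]
      rfl
    exact h1

/-- for a chain of subgroups, an element that dies modulo all members dies modulo the
intersection -/
theorem cs_chain {x : MonoidAlgebra R G} {c : Set (Subgroup G)} (hc : IsChain (· ≤ ·) c)
    (hne : c.Nonempty) (h : ∀ M ∈ c, ∀ g, cs M g x = 0) (g : G) : cs (sInf c) g x = 0 := by
  classical
  have key : ∀ F : Finset G, ∃ M ∈ c, ∀ h ∈ F, g⁻¹ * h ∈ M → g⁻¹ * h ∈ sInf c := by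
    intro F
    induction F using Finset.induction_on with
    | empty =>
      obtain ⟨M, hM⟩ := hne
      exact ⟨M, hM, by simp⟩
    | insert a F _ ih =>
      obtain ⟨M, hM, hMF⟩ := ih
      by_cases ha : g⁻¹ * a ∈ sInf c
      · refine ⟨M, hM, fun h hh hm => ?_⟩
        rcases Finset.mem_insert.1 hh with rfl | hh
        · exact ha
        · exact hMF h hh hm
      · have h1 : ∃ M' ∈ c, g⁻¹ * a ∉ M' := by
          by_contra hcon
          push Not at hcon
          exact ha (Subgroup.mem_sInf.2 hcon)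
        obtain ⟨M', hM', ha'⟩ := h1
        rcases hc.total hM hM' with h2 | h2
        · refine ⟨M, hM, fun h hh hm => ?_⟩
          rcases Finset.mem_insert.1 hh with rfl | hh
          · exact absurd (h2 hm) ha'
          · exact hMF h hh hm
        · refine ⟨M', hM', fun h hh hm => ?_⟩
          rcases Finset.mem_insert.1 hh with rfl | hh
          · exact absurd hm ha'
          · exact hMF h hh (h2 hm)
  obtain ⟨M, hM, hMF⟩ := key x.coeff.support
  rw [← h M hM g]
  apply agree
  intro h hh r
  rw [cs_single, cs_single]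
  have e : g⁻¹ * h ∈ sInf c ↔ g⁻¹ * h ∈ M :=
    ⟨fun h1 => Subgroup.mem_sInf.1 h1 M hM, hMF h hh⟩
  simp only [e]

/-- an idempotent matrix over `R[G]` that dies in `R[G ⧸ N]` is zero -/
theorem idem_eq_zero {C : Type*} [Group C] (hVP : VP R C G) {N : Subgroup G} [hN : N.Normal]
    (hH : Hyper C N) {ι : Type*} [Fintype ι] (e : Matrix ι ι (MonoidAlgebra R G))
    (he : e * e = e)
    (h0 : ∀ i j, mapDomainRingHom R (QuotientGroup.mk' N) (e i j) = 0) : e = 0 := by
  classical
  -- the set of normal subgroups modulo which `e` dies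
  let S : Set (Set G) := {s | ∃ M : Subgroup G, s = M ∧ M.Normal ∧ M ≤ N ∧
    ∀ i j g, cs M g (e i j) = 0}
  have hNS : (N : Set G) ∈ S :=
    ⟨N, rfl, hN, le_rfl, fun i j => (mapDomain_eq_zero_iff _).1 (h0 i j)⟩
  obtain ⟨s, _, hs⟩ := zorn_superset_nonempty S (fun c hcS hc hne => by
    let c' : Set (Subgroup G) := {M | (M : Set G) ∈ c}
    have hc'ne : c'.Nonempty := by
      obtain ⟨t, ht⟩ := hne
      obtain ⟨M, rfl, _⟩ := hcS ht
      exact ⟨M, ht⟩
    have hc' : IsChain (· ≤ ·) c' := by
      intro A hA B hB hAB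
      exact hc hA hB (fun h => hAB (SetLike.coe_injective h))
    have hprop : ∀ M ∈ c', M.Normal ∧ M ≤ N ∧ ∀ i j g, cs M g (e i j) = 0 := by
      intro M hM
      obtain ⟨M', h1, h2⟩ := hcS hM
      have h3 : M = M' := SetLike.coe_injective h1
      rw [h3]
      exact h2
    refine ⟨(sInf c' : Subgroup G), ⟨sInf c', rfl, ?_, ?_, ?_⟩, ?_⟩
    · constructor
      intro m hm g
      rw [Subgroup.mem_sInf] at hm ⊢
      intro M hM
      exact (hprop M hM).1.conj_mem m (hm M hM) g
    · obtain ⟨M, hM⟩ := hc'ne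
      exact (sInf_le hM).trans (hprop M hM).2.1
    · intro i j g
      exact cs_chain hc' hc'ne (fun M hM g => (hprop M hM).2.2 i j g) g
    · intro t ht
      obtain ⟨M, rfl, _⟩ := hcS ht
      exact fun x hx => Subgroup.mem_sInf.1 hx M ht) (N : Set G) hNS
  obtain ⟨⟨M, rfl, hMn, hMN, hMe⟩, hmin⟩ := hs
  have hJ : ∀ k i j, e i j ∈ J R M k :=
    idem_mem_J e he fun i j => mem_J_one ((mapDomain_eq_zero_iff _).2 (hMe i j))
  have hres : ∀ i j g, cs (resid C M) g (e i j) = 0 := fun i j g => hVP M _ (fun k => hJ k i j) g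
  have hle : resid C M = M := by
    have h1 : ((resid C M : Subgroup G) : Set G) ∈ S :=
      ⟨resid C M, rfl, resid_normal hMn, resid_le.trans hMN, hres⟩
    have h2 := hmin h1 (fun x hx => resid_le hx)
    exact le_antisymm resid_le (fun x hx => h2 hx)
  obtain ⟨E, hEM, hE⟩ := cs_fin hMn (fun p : ι × ι => e p.1 p.2) (fun p g => hMe p.1 p.2 g)
  have hEeq : Subgroup.normalClosure (E : Set G) = M := by
    have h1 : ((Subgroup.normalClosure (E : Set G) : Subgroup G) : Set G) ∈ S :=
      ⟨_, rfl, Subgroup.normalClosure_normal, hEM.trans hMN, fun i j g => hE (i, j) g⟩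
    have h2 := hmin h1 (fun x hx => hEM hx)
    exact le_antisymm hEM (fun x hx => h2 hx)
  subst hEeq
  have hbot : Subgroup.normalClosure (E : Set G) = ⊥ := by
    by_contra hne
    obtain ⟨φ, hφ⟩ := hH E hMN hne
    apply hφ
    ext m
    have hm : (m : G) ∈ resid C (Subgroup.normalClosure (E : Set G)) := by
      rw [hle]; exact m.2
    exact (mem_resid.1 hm).2 φ
  rw [hbot] at hMe
  ext i j g
  have h1 := hMe i j g
  have h2 : cs (⊥ : Subgroup G) g (e i j) = (e i j).coeff g := by
    let f₂ : MonoidAlgebra R G →+ R := (Finsupp.applyAddHom g).comp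
      (MonoidAlgebra.coeffAddEquiv (R := R) (M := G)).toAddMonoidHom
    have h3 : cs (⊥ : Subgroup G) g (e i j) = f₂ (e i j) := by
      apply agree
      intro h _ r
      rw [cs_single]
      show _ = (single h r : MonoidAlgebra R G).coeff g
      rw [coeff_single, Finsupp.single_apply]
      have e1 : g⁻¹ * h ∈ (⊥ : Subgroup G) ↔ h = g := by
        rw [Subgroup.mem_bot, inv_mul_eq_one, eq_comm]
      simp only [e1]
    exact h3
  rw [← h2, h1]
  rfl

/-- the matrix ring map -/
def mapMat (N : Subgroup G) [N.Normal] (ι : Type*) [Fintype ι] [DecidableEq ι] :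
    Matrix ι ι (MonoidAlgebra R G) →+* Matrix ι ι (MonoidAlgebra R (G ⧸ N)) :=
  (mapDomainRingHom R (QuotientGroup.mk' N)).mapMatrix

/-- direct finiteness of a matrix ring passes from `R[G ⧸ N]` to `R[G]` -/
theorem dir_ext {C : Type*} [Group C] (hVP : VP R C G) {N : Subgroup G} [hN : N.Normal]
    (hH : Hyper C N) {ι : Type*} [Fintype ι] [DecidableEq ι]
    (hQ : DirectlyFinite (Matrix ι ι (MonoidAlgebra R (G ⧸ N)))) :
    DirectlyFinite (Matrix ι ι (MonoidAlgebra R G)) := by
  intro a b hab
  have h1 : mapMat N ι a * mapMat N ι b = (1 : Matrix ι ι (MonoidAlgebra R (G ⧸ N))) := by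
    rw [← map_mul, hab, map_one]
  have h2 := hQ _ _ h1
  have he : (1 - b * a) * (1 - b * a) = 1 - b * a := by
    have h3 : b * a * (b * a) = b * a := by
      rw [mul_assoc, ← mul_assoc a b a, hab, one_mul]
    rw [mul_sub, mul_one, sub_mul, one_mul, h3, sub_self, sub_zero]
  have h0 : mapMat N ι (1 - b * a) = 0 := by
    rw [map_sub, map_one, map_mul, h2, sub_self]
  have h4 := idem_eq_zero hVP hH (1 - b * a) he (fun i j => congrFun (congrFun h0 i) j)
  exact (sub_eq_zero.1 h4).symm

theorem stab_ext {C : Type*} [Group C] (hVP : VP R C G) {N : Subgroup G} [hN : N.Normal]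
    (hH : Hyper C N) (hQ : StablyFinite (MonoidAlgebra R (G ⧸ N))) :
    StablyFinite (MonoidAlgebra R G) :=
  fun n hn => dir_ext hVP hH (hQ n hn)

theorem df_iff (S : Type*) [Ring S] :
    DirectlyFinite (Matrix Unit Unit S) ↔ DirectlyFinite S := by
  constructor
  · intro h a b hab
    have h1 : (Matrix.of fun _ _ => a : Matrix Unit Unit S) * (Matrix.of fun _ _ => b) = 1 := by
      ext i j
      rw [Matrix.mul_apply]
      simp [hab]
    have h2 := congrFun (congrFun (h _ _ h1) ()) ()
    rw [Matrix.mul_apply] at h2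
    simpa using h2
  · intro h a b hab
    have h1 := congrFun (congrFun hab ()) ()
    rw [Matrix.mul_apply] at h1
    have h2 : a () () * b () () = 1 := by simpa using h1
    have h3 := h _ _ h2
    ext i j
    rw [Matrix.mul_apply]
    simp [h3]

theorem df_ext {C : Type*} [Group C] (hVP : VP R C G) {N : Subgroup G} [hN : N.Normal]
    (hH : Hyper C N) (hQ : DirectlyFinite (MonoidAlgebra R (G ⧸ N))) :
    DirectlyFinite (MonoidAlgebra R G) :=
  (df_iff _).1 (dir_ext hVP hH ((df_iff _).2 hQ))

end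

end Vale.Agent.P194
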