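import Vale.Agent.P194.Ideal

/-!
P194: an element that lies in all powers of the kernel of `R[G] → R[G ⧸ M]` dies modulo the
intersection of the kernels of all homomorphisms from `M` to `ℤ/p` (characteristic `p`).
-/

namespace Vale.Agent.P194

open MonoidAlgebra

noncomputable section

variable {R : Type*} [Ring R] {G : Type*} [Group G]

theorem coset_inj (M : Subgroup G) (g : G) : Function.Injective (fun m : M => g * (m : G)) := by
  intro a b h
  exact Subtype.ext (mul_left_cancel h)

/-- the part of `x` on the coset `g M`, as an element of `R[M]` -/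
def res (M : Subgroup G) (g : G) : MonoidAlgebra R G →+ MonoidAlgebra R M :=
  comapDomainAddMonoidHom (fun m : M => g * (m : G)) (coset_inj M g)

theorem coeff_res (M : Subgroup G) (g : G) (x : MonoidAlgebra R G) (m : M) :
    (res M g x).coeff m = x.coeff (g * m) := rfl

theorem res_mul (M : Subgroup G) (g : G) (x : MonoidAlgebra R G) (w : MonoidAlgebra R M) :
    res M g (x * mapDomainRingHom R M.subtype w) = res M g x * w := by
  refine lin_ind (P := fun w => res M g (x * mapDomainRingHom R M.subtype w) = res M g x * w)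
    w ?_ ?_ ?_
  · rw [map_zero, mul_zero, mul_zero, map_zero]
  · intro y z hy hz
    rw [map_add, mul_add, map_add, hy, hz, mul_add]
  · intro m s
    have e1 : mapDomainRingHom R M.subtype (single m s) = single (m : G) s := by
      show mapDomain _ _ = _
      exact mapDomain_single
    rw [e1]
    ext b
    rw [coeff_res, coeff_mul_single_apply, coeff_mul_single_apply, coeff_res]
    congr 2
    rw [mul_assoc]
    rfl

theorem mul_pl_mem {B : Type*} [Group B] (y : MonoidAlgebra R B) (L : List B) :
    y * pl R L ∈ J R (⊤ : Subgroup B) L.length := by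
  refine lin_ind (P := fun y => y * pl R L ∈ J R (⊤ : Subgroup B) L.length) y ?_ ?_ ?_
  · rw [zero_mul]; exact zero_mem _
  · intro y z hy hz
    rw [add_mul]
    exact add_mem hy hz
  · intro g r
    apply AddSubgroup.subset_closure
    exact ⟨g, r, L, fun _ _ => Subgroup.mem_top _, rfl, rfl⟩

theorem map_pl {A B : Type*} [Group A] [Group B] (ρ : A →* B) (L : List A) :
    mapDomainRingHom R ρ (pl R L) = pl R (L.map ρ) := by
  unfold pl
  rw [map_list_prod, List.map_map, List.map_map]
  congr 1
  apply List.map_congr_left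
  intro a _
  show mapDomainRingHom R ρ (single a 1 - 1) = single (ρ a) 1 - 1
  rw [map_sub, map_one]
  congr 1
  show mapDomain _ _ = _
  exact mapDomain_single

theorem vanish {B : Type*} [Group B] {M : Subgroup G} {k : ℕ} {x : MonoidAlgebra R G}
    (hx : x ∈ J R M k) (g : G) (ρ : M →* B) :
    mapDomainRingHom R ρ (res M g x) ∈ J R (⊤ : Subgroup B) k := by
  unfold J at hx
  induction hx using AddSubgroup.closure_induction with
  | mem x hx =>
    obtain ⟨h, r, L, hL, hk, rfl⟩ := hx
    lift L to List M using hL
    have e1 : pl R (L.map (fun m : M => (m : G))) = mapDomainRingHom R M.subtype (pl R L) := by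
      rw [map_pl]
      rfl
    rw [e1, res_mul, map_mul, map_pl]
    have e2 : k = (L.map ρ).length := by
      rw [List.length_map] at hk ⊢
      exact hk.symm
    rw [e2]
    exact mul_pl_mem _ _
  | zero => rw [map_zero, map_zero]; exact zero_mem _
  | add x y _ _ hx hy => rw [map_add, map_add]; exact add_mem hx hy
  | neg x _ hx => rw [map_neg, map_neg]; exact neg_mem hx

/-- a long product vanishes over a finite abelian group of exponent `p` in characteristic `p` -/
theorem pl_eq_zero {p : ℕ} [hp : Fact p.Prime] [CharP R p] {B : Type*} [CommGroup B] [Fintype B]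
    (hB : ∀ b : B, b ^ p = 1) (L : List B) (hL : Fintype.card B * p < L.length) :
    pl R L = 0 := by
  classical
  have : CharP (MonoidAlgebra (ZMod p) B) p :=
    charP_of_injective_ringHom (f := (MonoidAlgebra.singleOneRingHom : ZMod p →+* _))
      (by
        intro a b h
        exact MonoidAlgebra.single_right_injective h) p
  have h1 : pl (ZMod p) L = 0 := by
    unfold pl
    rw [Finset.prod_list_map_count]
    have h2 : ∃ b ∈ L.toFinset, p ≤ L.count b := by
      by_contra hcon
      push Not at hcon
      have h3 : ∑ b ∈ L.toFinset, L.count b ≤ ∑ _b ∈ L.toFinset, p :=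
        Finset.sum_le_sum fun b hb => (hcon b hb).le
      rw [List.sum_toFinset_count_eq_length, Finset.sum_const, smul_eq_mul] at h3
      have h4 : L.toFinset.card * p ≤ Fintype.card B * p :=
        Nat.mul_le_mul_right _ (Finset.card_le_univ _)
      omega
    obtain ⟨b, hb, hb1⟩ := h2
    refine Finset.prod_eq_zero hb (pow_eq_zero_of_le hb1 ?_)
    unfold dl
    rw [sub_pow_char, MonoidAlgebra.single_pow, hB, one_pow, one_pow]
    exact sub_self _
  have h2 : mapRingHom B (ZMod.castHom (dvd_refl p) R) (pl (ZMod p) L) = pl R L := by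
    unfold pl
    rw [map_list_prod, List.map_map]
    congr 1
    apply List.map_congr_left
    intro a _
    show mapRingHom B (ZMod.castHom (dvd_refl p) R) (single a 1 - 1) = single a 1 - 1
    rw [map_sub, map_one, mapRingHom_single, map_one]
  rw [← h2, h1, map_zero]

/-! the residual -/

/-- the intersection of the kernels of all homomorphisms `M → C` -/
def resid (C : Type*) [Group C] (M : Subgroup G) : Subgroup G :=
  (⨅ φ : M →* C, φ.ker).map M.subtype

theorem mem_resid {C : Type*} [Group C] {M : Subgroup G} {g : G} :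
    g ∈ resid C M ↔ ∃ h : g ∈ M, ∀ φ : M →* C, φ ⟨g, h⟩ = 1 := by
  unfold resid
  rw [Subgroup.mem_map]
  constructor
  · rintro ⟨m, hm, rfl⟩
    refine ⟨m.2, fun φ => ?_⟩
    exact (Subgroup.mem_iInf.1 hm) φ
  · rintro ⟨h, hφ⟩
    exact ⟨⟨g, h⟩, Subgroup.mem_iInf.2 fun φ => hφ φ, rfl⟩

theorem resid_le {C : Type*} [Group C] {M : Subgroup G} : resid C M ≤ M := by
  intro g hg
  exact (mem_resid.1 hg).1

theorem resid_normal {C : Type*} [Group C] {M : Subgroup G} (hM : M.Normal) :
    (resid C M).Normal := by
  constructor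
  intro m hm g
  obtain ⟨h, hφ⟩ := mem_resid.1 hm
  refine mem_resid.2 ⟨hM.conj_mem m h g, fun φ => ?_⟩
  let c : M →* M :=
    { toFun := fun x => ⟨g * x * g⁻¹, hM.conj_mem x x.2 g⟩
      map_one' := by ext; simp
      map_mul' := fun x y => by ext; simp }
  exact hφ (φ.comp c)

/-- the conclusion of one step: an element in all powers dies modulo the residual -/
def VP (R : Type*) [Ring R] (C : Type*) [Group C] (G : Type*) [Group G] : Prop :=
  ∀ (M : Subgroup G) (x : MonoidAlgebra R G), (∀ k, x ∈ J R M k) → ∀ g, cs (resid C M) g x = 0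

/-- it is enough to find, for every finite set of elements, one homomorphism to a group `B` with
trivial intersection of the powers that separates them -/
theorem vp_of_sep {C : Type*} [Group C] {M : Subgroup G} {x : MonoidAlgebra R G}
    (hx : ∀ k, x ∈ J R M k) (g : G) {B : Type*} [Group B]
    (hB : ∀ y : MonoidAlgebra R B, (∀ k, y ∈ J R (⊤ : Subgroup B) k) → y = 0) (ρ : M →* B)
    (hρ : ∀ h ∈ x.coeff.support, ∀ hh : g⁻¹ * h ∈ M,
      (ρ ⟨g⁻¹ * h, hh⟩ = 1 ↔ g⁻¹ * h ∈ resid C M)) :
    cs (resid C M) g x = 0 := by
  classical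
  have h1 : mapDomainRingHom R ρ (res M g x) = 0 := hB _ fun k => vanish (hx k) g ρ
  let f₂ : MonoidAlgebra R G →+ R :=
    (((Finsupp.applyAddHom (1 : B)).comp
      (MonoidAlgebra.coeffAddEquiv (R := R) (M := B)).toAddMonoidHom).comp
      (mapDomainRingHom R ρ).toAddMonoidHom).comp (res M g)
  have h2 : cs (resid C M) g x = f₂ x := by
    apply agree
    intro h hh r
    rw [cs_single]
    show _ = (mapDomainRingHom R ρ (res M g (single h r))).coeff 1
    by_cases hM : g⁻¹ * h ∈ M
    · have e1 : res M g (single h r : MonoidAlgebra R G) = single ⟨g⁻¹ * h, hM⟩ r := by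
        ext m
        rw [coeff_res, coeff_single, coeff_single, Finsupp.single_apply, Finsupp.single_apply]
        have e2 : (h = g * m) ↔ ((⟨g⁻¹ * h, hM⟩ : M) = m) := by
          constructor
          · rintro rfl
            ext
            simp
          · rintro rfl
            simp
        simp only [e2]
      have e3 : mapDomainRingHom R ρ (single (⟨g⁻¹ * h, hM⟩ : M) r) =
          single (ρ ⟨g⁻¹ * h, hM⟩) r := by
        show mapDomain _ _ = _
        exact mapDomain_single
      rw [e1, e3, coeff_single, Finsupp.single_apply]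
      have e4 := hρ h hh hM
      simp only [e4]
    · have e1 : res M g (single h r : MonoidAlgebra R G) = 0 := by
        ext m
        rw [coeff_res, coeff_single, Finsupp.single_apply, if_neg]
        · rfl
        · rintro rfl
          apply hM
          simp
      rw [e1, map_zero, if_neg fun h3 => hM (resid_le h3)]
      rfl
  rw [h2]
  show (mapDomainRingHom R ρ (res M g x)).coeff 1 = 0
  rw [h1]
  rfl

theorem vp_p {p : ℕ} [hp : Fact p.Prime] [CharP R p] : VP R (Multiplicative (ZMod p)) G := by
  classical
  intro M x hx g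
  set F := x.coeff.support with hF
  have hch : ∀ h : F, ∃ φ : M →* Multiplicative (ZMod p),
      ∀ hh : g⁻¹ * (h : G) ∈ M, g⁻¹ * (h : G) ∉ resid (Multiplicative (ZMod p)) M →
        φ ⟨g⁻¹ * h, hh⟩ ≠ 1 := by
    intro h
    by_cases hh : g⁻¹ * (h : G) ∈ M
    · by_cases h2 : g⁻¹ * (h : G) ∈ resid (Multiplicative (ZMod p)) M
      · exact ⟨1, fun _ h3 => absurd h2 h3⟩
      · rw [mem_resid] at h2
        push Not at h2
        obtain ⟨φ, hφ⟩ := h2 hh
        exact ⟨φ, fun _ _ => hφ⟩
    · exact ⟨1, fun h3 => absurd h3 hh⟩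
  choose φ hφ using hch
  let ρ : M →* (F → Multiplicative (ZMod p)) := MonoidHom.pi φ
  have hB : ∀ b : F → Multiplicative (ZMod p), b ^ p = 1 := by
    intro b
    funext i
    have h1 : (b i) ^ p = 1 := by
      have h2 : (p : ℕ) • (Multiplicative.toAdd (b i)) = 0 := by
        rw [nsmul_eq_mul, ZMod.natCast_self, zero_mul]
      exact h2
    exact h1
  have : Fintype (F → Multiplicative (ZMod p)) := Pi.instFintype
  refine vp_of_sep hx g (B := F → Multiplicative (ZMod p)) ?_ ρ ?_
  · intro y hy
    have h1 := hy (Fintype.card (F → Multiplicative (ZMod p)) * p + 1)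
    have h2 : J R (⊤ : Subgroup (F → Multiplicative (ZMod p)))
        (Fintype.card (F → Multiplicative (ZMod p)) * p + 1) ≤ ⊥ := by
      unfold J
      rw [AddSubgroup.closure_le]
      rintro z ⟨h, r, L, _, hL, rfl⟩
      have h3 : pl R L = 0 := pl_eq_zero hB L (by omega)
      rw [h3, mul_zero]
      exact zero_mem _
    exact (AddSubgroup.mem_bot).1 (h2 h1)
  · intro h hh hM
    constructor
    · intro h1
      by_contra h2
      exact hφ ⟨h, hh⟩ hM h2 (congrFun h1 ⟨h, hh⟩)
    · intro h1
      obtain ⟨_, h2⟩ := mem_resid.1 h1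
      funext i
      exact h2 (φ i)

end

end Vale.Agent.P194
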