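import Vale.Agent.P194.Main

/-!
P194: the step for homomorphisms to `ℤ`, any coefficient ring.
-/

namespace Vale.Agent.P194

open MonoidAlgebra

noncomputable section

variable {R : Type*} [Ring R]

/-- the infinite cyclic group -/
abbrev Zm : Type := Multiplicative ℤ

/-- the generator -/
def tt : Zm := Multiplicative.ofAdd 1

theorem tt_zpow (a : Zm) : a = tt ^ (Multiplicative.toAdd a) := by
  unfold tt
  rw [← ofAdd_zsmul, smul_eq_mul, mul_one]
  rfl

theorem dvd_dl (a : Zm) : dl ℤ tt ∣ dl ℤ a := by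
  have hpow : ∀ n : ℕ, dl ℤ tt ∣ dl ℤ (tt ^ n) := by
    intro n
    have h1 : (single (tt ^ n) 1 : MonoidAlgebra ℤ Zm) = (single tt 1) ^ n := by
      rw [MonoidAlgebra.single_pow, one_pow]
    unfold dl
    rw [h1]
    have h2 := sub_dvd_pow_sub_pow (single tt 1 : MonoidAlgebra ℤ Zm) 1 n
    rwa [one_pow] at h2
  rw [tt_zpow a]
  rcases Int.eq_nat_or_neg (Multiplicative.toAdd a) with ⟨n, h | h⟩
  · rw [h, zpow_natCast]
    exact hpow n
  · rw [h, zpow_neg, zpow_natCast]
    have h3 : dl ℤ ((tt ^ n)⁻¹ : Zm) = -(single ((tt ^ n)⁻¹ : Zm) 1 * dl ℤ (tt ^ n)) := by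
      unfold dl
      rw [mul_sub, single_mul, mul_one, mul_one, inv_mul_cancel]
      have h4 : (single (1 : Zm) (1 : ℤ) : MonoidAlgebra ℤ Zm) = 1 := rfl
      rw [h4]
      abel
    rw [h3]
    exact (dvd_neg).2 ((hpow n).mul_left _)

theorem pow_dvd_pl (L : List Zm) : (dl ℤ tt) ^ L.length ∣ pl ℤ L := by
  induction L with
  | nil => simp [pl]
  | cons a L ih =>
    have e1 : pl ℤ (a :: L) = dl ℤ a * pl ℤ L := by simp [pl]
    rw [e1, List.length_cons, pow_succ']
    exact mul_dvd_mul (dvd_dl a) ih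

theorem map_dl (a : Zm) : mapRingHom Zm (Int.castRingHom R) (dl ℤ a) = dl R a := by
  show mapRingHom Zm (Int.castRingHom R) (single a 1 - 1) = single a 1 - 1
  rw [map_sub, map_one, mapRingHom_single, map_one]

theorem map_pl' (L : List Zm) : mapRingHom Zm (Int.castRingHom R) (pl ℤ L) = pl R L := by
  unfold pl
  rw [map_list_prod, List.map_map]
  congr 1
  apply List.map_congr_left
  intro a _
  exact map_dl a

theorem exists_factor {y : MonoidAlgebra R Zm} {k : ℕ} (hy : y ∈ J R (⊤ : Subgroup Zm) k) :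
    ∃ z : MonoidAlgebra R Zm, y = z * (dl R tt) ^ k := by
  unfold J at hy
  induction hy using AddSubgroup.closure_induction with
  | mem x hx =>
    obtain ⟨g, r, L, _, hk, rfl⟩ := hx
    obtain ⟨q, hq⟩ := pow_dvd_pl L
    refine ⟨single g r * mapRingHom Zm (Int.castRingHom R) q, ?_⟩
    have h1 : pl R L = mapRingHom Zm (Int.castRingHom R) q * (dl R tt) ^ k := by
      rw [← map_pl', hq, map_mul, map_pow, map_dl, hk]
      have h2 := (Commute.all ((dl ℤ tt) ^ k) q).map (mapRingHom Zm (Int.castRingHom R))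
      rw [map_pow, map_dl] at h2
      exact h2.eq
    rw [h1, mul_assoc]
  | zero => exact ⟨0, by rw [zero_mul]⟩
  | add x y _ _ hx hy =>
    obtain ⟨z, rfl⟩ := hx
    obtain ⟨w, rfl⟩ := hy
    exact ⟨z + w, by rw [add_mul]⟩
  | neg x _ hx =>
    obtain ⟨z, rfl⟩ := hx
    exact ⟨-z, by rw [neg_mul]⟩

/-- coefficient -/
def cf (y : MonoidAlgebra R Zm) (j : ℤ) : R := y.coeff (Multiplicative.ofAdd j)

theorem cf_mul_dl (z : MonoidAlgebra R Zm) (j : ℤ) : cf (z * dl R tt) j = cf z (j - 1) - cf z j := by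
  unfold cf dl
  rw [mul_sub, mul_one]
  show (z * single tt 1).coeff _ - z.coeff _ = _
  rw [coeff_mul_single_apply, mul_one]
  rfl

theorem cf_finite (z : MonoidAlgebra R Zm) : ∃ n : ℕ, ∀ j : ℤ, (n : ℤ) < |j| → cf z j = 0 := by
  classical
  refine ⟨∑ a ∈ z.coeff.support, (Multiplicative.toAdd a).natAbs, fun j hj => ?_⟩
  by_contra h
  have h1 : (Multiplicative.ofAdd j : Zm) ∈ z.coeff.support := Finsupp.mem_support_iff.2 h
  have h2 : (Multiplicative.toAdd (Multiplicative.ofAdd j : Zm)).natAbs ≤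
      ∑ a ∈ z.coeff.support, (Multiplicative.toAdd a).natAbs :=
    Finset.single_le_sum (f := fun a : Zm => (Multiplicative.toAdd a).natAbs)
      (fun _ _ => Nat.zero_le _) h1
  rw [toAdd_ofAdd] at h2
  have h3 : |j| = (j.natAbs : ℤ) := (Int.natCast_natAbs j).symm
  rw [h3] at hj
  have : (∑ a ∈ z.coeff.support, (Multiplicative.toAdd a).natAbs) < j.natAbs := by
    exact_mod_cast hj
  omega

theorem supp_step {z : MonoidAlgebra R Zm} {a b : ℤ}
    (ha : ∀ j, j < a → cf (z * dl R tt) j = 0) (hb : ∀ j, b < j → cf (z * dl R tt) j = 0) :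
    (∀ j, j < a → cf z j = 0) ∧ (∀ j, b - 1 < j → cf z j = 0) := by
  obtain ⟨n, hn⟩ := cf_finite z
  constructor
  · intro j hj
    have h1 : ∀ m : ℕ, cf z (j - m) = cf z j := by
      intro m
      induction m with
      | zero => simp
      | succ m ih =>
        have h2 := ha (j - m) (by omega)
        rw [cf_mul_dl, sub_eq_zero] at h2
        rw [← ih, ← h2]
        congr 1
        push_cast
        ring
    rw [← h1 (n + j.natAbs + 1)]
    apply hn
    rw [lt_abs]
    right
    push_cast
    have := le_abs_self j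
    linarith
  · intro j hj
    have h1 : ∀ m : ℕ, cf z (j + m) = cf z j := by
      intro m
      induction m with
      | zero => simp
      | succ m ih =>
        have h2 := hb (j + m + 1) (by omega)
        rw [cf_mul_dl, sub_eq_zero] at h2
        rw [← ih]
        have e1 : j + m + 1 - 1 = j + m := by ring
        rw [e1] at h2
        rw [h2]
        congr 1
        push_cast
        ring
    rw [← h1 (n + j.natAbs + 1)]
    apply hn
    rw [lt_abs]
    left
    push_cast
    have := neg_abs_le j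
    linarith

theorem supp_pow (k : ℕ) : ∀ {z : MonoidAlgebra R Zm} {a b : ℤ},
    (∀ j, j < a → cf (z * (dl R tt) ^ k) j = 0) → (∀ j, b < j → cf (z * (dl R tt) ^ k) j = 0) →
    (∀ j, j < a → cf z j = 0) ∧ (∀ j, b - k < j → cf z j = 0) := by
  induction k with
  | zero =>
    intro z a b ha hb
    rw [pow_zero, mul_one] at ha hb
    refine ⟨ha, fun j hj => hb j ?_⟩
    simpa using hj
  | succ k ih =>
    intro z a b ha hb
    rw [pow_succ, ← mul_assoc] at ha hb
    obtain ⟨h1, h2⟩ := supp_step ha hb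
    obtain ⟨h3, h4⟩ := ih h1 h2
    refine ⟨h3, fun j hj => h4 j ?_⟩
    push_cast at hj
    linarith

/-- the intersection of the powers is zero over the infinite cyclic group -/
theorem inter_Zm {y : MonoidAlgebra R Zm} (hy : ∀ k, y ∈ J R (⊤ : Subgroup Zm) k) : y = 0 := by
  obtain ⟨n, hn⟩ := cf_finite y
  obtain ⟨z, hz⟩ := exists_factor (hy (2 * n + 1))
  have ha : ∀ j : ℤ, j < -(n : ℤ) → cf (z * (dl R tt) ^ (2 * n + 1)) j = 0 := by
    intro j hj
    rw [← hz]
    apply hn
    rw [lt_abs]
    right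
    omega
  have hb : ∀ j : ℤ, (n : ℤ) < j → cf (z * (dl R tt) ^ (2 * n + 1)) j = 0 := by
    intro j hj
    rw [← hz]
    apply hn
    rw [lt_abs]
    left
    exact hj
  obtain ⟨h1, h2⟩ := supp_pow _ ha hb
  have h3 : z = 0 := by
    ext j
    show cf z (Multiplicative.toAdd j) = 0
    rcases lt_or_ge (Multiplicative.toAdd j) (-(n : ℤ)) with h | h
    · exact h1 _ h
    · apply h2
      push_cast
      linarith
  rw [hz, h3, zero_mul]

/-- finitely many elements that are not killed by all homomorphisms to `ℤ` are all not killed by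
one homomorphism -/
theorem exists_sep {M : Type*} [Group M] (F : Finset M)
    (hF : ∀ m ∈ F, ∃ φ : M →* Zm, φ m ≠ 1) : ∃ ρ : M →* Zm, ∀ m ∈ F, ρ m ≠ 1 := by
  classical
  induction F using Finset.induction_on with
  | empty => exact ⟨1, by simp⟩
  | insert a F _ ih =>
    obtain ⟨ρ, hρ⟩ := ih fun m hm => hF m (Finset.mem_insert_of_mem hm)
    obtain ⟨φ, hφ⟩ := hF a (Finset.mem_insert_self a F)
    by_cases ha : ρ a = 1
    · set N : ℕ := 1 + ∑ m ∈ F, (Multiplicative.toAdd (φ m)).natAbs with hN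
      refine ⟨ρ ^ N * φ, fun m hm h1 => ?_⟩
      rw [MonoidHom.mul_apply, MonoidHom.pow_apply] at h1
      rcases Finset.mem_insert.1 hm with rfl | hm
      · rw [ha, one_pow, one_mul] at h1
        exact hφ h1
      · have h2 : (N : ℤ) * Multiplicative.toAdd (ρ m) + Multiplicative.toAdd (φ m) = 0 := by
          have h3 := congrArg Multiplicative.toAdd h1
          rw [toAdd_mul, toAdd_pow, toAdd_one, nsmul_eq_mul] at h3
          exact h3
        have h4 : (Multiplicative.toAdd (φ m)).natAbs ≤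
            ∑ m ∈ F, (Multiplicative.toAdd (φ m)).natAbs :=
          Finset.single_le_sum (f := fun m => (Multiplicative.toAdd (φ m)).natAbs)
            (fun _ _ => Nat.zero_le _) hm
        have h5 : Multiplicative.toAdd (ρ m) ≠ 0 := fun h => hρ m hm h
        have h6 : (1 : ℤ) ≤ |Multiplicative.toAdd (ρ m)| := Int.one_le_abs h5
        have h7 : |Multiplicative.toAdd (φ m)| = (N : ℤ) * |Multiplicative.toAdd (ρ m)| := by
          have h8 : Multiplicative.toAdd (φ m) = -((N : ℤ) * Multiplicative.toAdd (ρ m)) := by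
            linarith
          rw [h8, abs_neg, abs_mul, Nat.abs_cast]
        have h9 : |Multiplicative.toAdd (φ m)| = ((Multiplicative.toAdd (φ m)).natAbs : ℤ) :=
          (Int.natCast_natAbs _).symm
        have h10 : (N : ℤ) ≤ (N : ℤ) * |Multiplicative.toAdd (ρ m)| :=
          le_mul_of_one_le_right (by positivity) h6
        have h11 : ((Multiplicative.toAdd (φ m)).natAbs : ℤ) ≤
            ((∑ m ∈ F, (Multiplicative.toAdd (φ m)).natAbs : ℕ) : ℤ) := by exact_mod_cast h4
        have h12 : (N : ℤ) = 1 + ((∑ m ∈ F, (Multiplicative.toAdd (φ m)).natAbs : ℕ) : ℤ) := by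
          rw [hN]
          push_cast
          ring
        linarith
    · refine ⟨ρ, fun m hm => ?_⟩
      rcases Finset.mem_insert.1 hm with rfl | hm
      · exact ha
      · exact hρ m hm

theorem vp_Z {G : Type*} [Group G] : VP R Zm G := by
  classical
  intro M x hx g
  let F : Finset M := ((x.coeff.support.image (fun h => g⁻¹ * h)).subtype (fun h => h ∈ M)).filter
    (fun m => (m : G) ∉ resid Zm M)
  obtain ⟨ρ, hρ⟩ := exists_sep F (by
    intro m hm
    have h1 := (Finset.mem_filter.1 hm).2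
    rw [mem_resid] at h1
    push Not at h1
    exact h1 m.2)
  refine vp_of_sep hx g (fun y hy => inter_Zm hy) ρ ?_
  intro h hh hM
  constructor
  · intro h1
    by_contra h2
    refine hρ ⟨g⁻¹ * h, hM⟩ ?_ h1
    refine Finset.mem_filter.2 ⟨?_, h2⟩
    exact Finset.mem_subtype.2 (Finset.mem_image.2 ⟨h, hh, rfl⟩)
  · intro h1
    obtain ⟨_, h2⟩ := mem_resid.1 h1
    exact h2 ρ

end

end Vale.Agent.P194
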